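import Vale.Agent.P167.H718.Rc
import Vale.Agent.P167.H718.E2c
import Vale.Agent.P167.XDL.Enl

/-!
# P167, [REAL]: the statement

`RealP q S₀ N v₀ t K p k S f`: the domain `S` of `Z²` with the polygon `p` and the marks `p 0`, `p k`
realizes the `N`-fold enlargement, translated by `v₀`, of the unit lattice polygon `q` of the lattice
of the sites of the squares; `a` = the boundary site number `t`, `b` = the boundary site number
`t + K`.
-/

set_option autoImplicit false

namespace Vale.Agent.P167.H653.Real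

open Vale.Agent.P167.E6 (IsPolygon Encloses dir)
open Vale.Agent.P167.H718 (Dob Dq etaQ)
open Vale.Agent.P167.H192 (ro)
open Vale.Agent.P167.H825 (enl)

/-- The boundary sites of the translated enlargement, from the site number `t`. -/
def cc {m : ℕ} (q : ZMod m → ℤ × ℤ) (N t : ℕ) (v₀ : ℤ × ℤ) (i : ℕ) : ℤ × ℤ :=
  Enl.PN q N (i + t) + v₀

/-- The realization of the enlargement by a polygon of `Z²`. -/
structure RealP {m : ℕ} (q : ZMod m → ℤ × ℤ) (S₀ : Finset (ℤ × ℤ)) (N : ℕ) (v₀ : ℤ × ℤ) (t K : ℕ)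
    {n : ℕ} (p : ZMod n → ℤ × ℤ) (k : ℕ) (S : Finset (ℤ × ℤ)) (f : ℕ → ℕ) : Prop where
  poly : IsPolygon p
  encl : Encloses p S
  k_pos : 0 < k
  k_lt : k < n
  dq : Dq S p k = (enl S₀ N).image (· + v₀)
  dob : Dob (etaQ p k) ((enl S₀ N).image (· + v₀)) (fun x => Enl.qN q N t x + v₀) K
  mono : Monotone f
  f_zero : f 0 = 0
  f_k : f k = K
  f_n : f n = m * N
  f_step : ∀ i, f (i + 1) ≤ f i + 4
  near : ∀ i < n, |(ro (p i)).1 - (cc q N t v₀ (f i)).1| ≤ 2 ∧
    |(ro (p i)).2 - (cc q N t v₀ (f i)).2| ≤ 2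
  start : ro (p (-1)) = cc q N t v₀ 0
  target : ro (p k) = cc q N t v₀ K
  /-- The wired arc near `b` (a flat piece of length `M` in the direction `r`). -/
  wired : ∀ (M : ℕ) (r : Fin 4), Even M → K + M ≤ m * N →
    (∀ i, K ≤ i → i < K + M → cc q N t v₀ (i + 1) = cc q N t v₀ i + dir r) →
    ∀ m' : ℕ, m' < M → p ((k : ZMod n) + m' + 1) =
      p ((k : ZMod n) + m') + if Even m' then dir (r + 3) else dir r
  /-- The free arc near `b` (a flat piece of length `M` in the direction `r`). -/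
  free : ∀ (M : ℕ) (r : Fin 4), Even M → M ≤ K →
    (∀ i, K ≤ i + M → i < K → cc q N t v₀ (i + 1) = cc q N t v₀ i + dir r) →
    ∀ m' : ℕ, m' < M → p ((k : ZMod n) - m') =
      p ((k : ZMod n) - m' - 1) + if Even m' then dir (r + 3) else dir r

end Vale.Agent.P167.H653.Real
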