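import Mathlib.Algebra.BigOperators.Intervals
import Mathlib.Data.Nat.Find
import Mathlib.Order.Monotone.Basic
import Mathlib.Tactic.Linarith

/-!
# P167, [REAL]: blocks of positive length

`WS w j` = the sum of the lengths of the first `j` blocks, `JS w m` = the block which contains `m`.
-/

namespace Vale.Agent.P167.H653.Real

open Finset

/-- The first position of the block `j`. -/
def WS (w : ℕ → ℕ) (j : ℕ) : ℕ := ∑ i ∈ range j, w i

/-- The block which contains the position `m`. -/
def JS (w : ℕ → ℕ) (m : ℕ) : ℕ := Nat.findGreatest (fun j => WS w j ≤ m) m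

variable {w : ℕ → ℕ}

theorem WS_zero : WS w 0 = 0 := rfl

theorem WS_succ (j : ℕ) : WS w (j + 1) = WS w j + w j := by
  unfold WS
  rw [sum_range_succ]

theorem WS_mono : Monotone (WS w) := monotone_nat_of_le_succ fun j => by rw [WS_succ]; omega

variable (hw : ∀ j, 1 ≤ w j)
include hw

theorem WS_strict : StrictMono (WS w) :=
  strictMono_nat_of_lt_succ fun j => by rw [WS_succ]; have := hw j; omega

theorem le_WS (j : ℕ) : j ≤ WS w j := (WS_strict hw).le_apply

theorem JS_spec (m : ℕ) : WS w (JS w m) ≤ m ∧ m < WS w (JS w m + 1) := by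
  constructor
  · have h : (fun j => WS w j ≤ m) (Nat.findGreatest (fun j => WS w j ≤ m) m) :=
      Nat.findGreatest_spec (P := fun j => WS w j ≤ m) (Nat.zero_le m) (by rw [WS_zero]; omega)
    exact h
  · by_contra hc
    push Not at hc
    have h1 : JS w m + 1 ≤ m := (le_WS hw _).trans hc
    have h2 := Nat.le_findGreatest (P := fun j => WS w j ≤ m) h1 hc
    unfold JS at h2
    omega

theorem JS_eq {m j : ℕ} (h1 : WS w j ≤ m) (h2 : m < WS w (j + 1)) : JS w m = j := by
  obtain ⟨h3, h4⟩ := JS_spec hw m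
  have h5 : j < JS w m + 1 := (WS_strict hw).lt_iff_lt.1 (lt_of_le_of_lt h1 h4)
  have h6 : JS w m < j + 1 := (WS_strict hw).lt_iff_lt.1 (lt_of_le_of_lt h3 h2)
  omega

theorem JS_add {j t : ℕ} (ht : t < w j) : JS w (WS w j + t) = j :=
  JS_eq hw (by omega) (by rw [WS_succ]; omega)

theorem JS_WS (j : ℕ) : JS w (WS w j) = j := by
  have := JS_add hw (j := j) (t := 0) (hw j)
  rwa [add_zero] at this

theorem exists_blk (m : ℕ) : ∃ t, t < w (JS w m) ∧ m = WS w (JS w m) + t := by
  obtain ⟨h3, h4⟩ := JS_spec hw m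
  rw [WS_succ] at h4
  exact ⟨m - WS w (JS w m), by omega, by omega⟩

theorem JS_mono : Monotone (JS w) := by
  intro a b hab
  have h1 := (JS_spec hw a).1
  have h2 := (JS_spec hw b).2
  have h5 : JS w a < JS w b + 1 := (WS_strict hw).lt_iff_lt.1 (by omega)
  omega

theorem JS_lt {m j : ℕ} : JS w m < j ↔ m < WS w j := by
  constructor
  · intro h
    exact (JS_spec hw m).2.trans_le (WS_mono h)
  · intro h
    exact (WS_strict hw).lt_iff_lt.1 ((JS_spec hw m).1.trans_lt h)

theorem le_JS {m j : ℕ} : j ≤ JS w m ↔ WS w j ≤ m := by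
  have := JS_lt hw (m := m) (j := j)
  omega

end Vale.Agent.P167.H653.Real
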