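import Vale.Agent.P167.H653.Real.Enc

/-!
# P167, [REAL]: the boundary conditions of the zigzag domain

The open edges of the wired arc of the zigzag polygon are Dobrushin boundary conditions for `D`
(wired from `c K` to `c L = c 0`).
-/

namespace Vale.Agent.P167.H653.Real

open Finset Relation
open Vale.Agent.P145.FB (PStep)
open Vale.Agent.P167.E6 (IsPolygon Encloses dir face edges)
open Vale.Agent.P167.H718 (Chordless Dq etaQ Dob OutC good_etaQ step_face dir4)
open Vale.Agent.P167.H192 (cfg_true ed sq_ed)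
open Vale.Agent.P167.BR (sites mem_sites)
open Vale.Agent.P167.FK (even_step)

variable {L : ℕ} {c : ZMod L → ℤ × ℤ} {D : Finset (ℤ × ℤ)} {G : ℤ × ℤ → Prop} {K : ℕ}

section

variable (B : Bd L c D G)
include B

theorem Bd.eta_true (hKe : Even K) (hK0 : 0 < K) (v : ℤ × ℤ) :
    etaQ (zz c K) (WS (len c K) (K / 2) - 1) v = true ↔
      ∃ j t, K ≤ 2 * j ∧ j < L / 2 ∧ t < len c K j ∧ v = face (oo c j) (vr c K j t) := by
  unfold etaQ
  rw [cfg_true, Finset.mem_coe, B.mem_wE_zz hKe hK0 (H192.isEdge_ed v), sq_ed]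

/-- The way around the wired odd sites. -/
theorem Bd.join_blk (hKe : Even K) (hK0 : 0 < K) {j : ℕ} (hj : K ≤ 2 * j) (hjL : j < L / 2) :
    OutC (etaQ (zz c K) (WS (len c K) (K / 2) - 1)) D (c ((2 * j : ℕ) : ZMod L))
      (c ((2 * (j + 1) : ℕ) : ZMod L)) := by
  have key : ∀ t, t ≤ len c K j → OutC (etaQ (zz c K) (WS (len c K) (K / 2) - 1)) D
      (vert c K j 0) (vert c K j t) := by
    intro t
    induction t with
    | zero => intro _; exact ReflTransGen.refl
    | succ t ih =>
      intro ht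
      refine (ih (by omega)).tail ?_
      unfold vert
      rw [vr_succ_wired hj]
      refine step_face ⟨?_, fun h => B.sq_wired hj (by omega) (Finset.mem_coe.1 h)⟩
      exact (B.eta_true hKe hK0 _).2 ⟨j, t, hj, hjL, by omega, rfl⟩
  have h := key _ le_rfl
  rwa [B.vert_zero, B.vert_len] at h

theorem Bd.join_le (hKe : Even K) (hK0 : 0 < K) (i : ℕ) :
    ∀ m : ℕ, K ≤ 2 * i → i + m ≤ L / 2 → OutC (etaQ (zz c K) (WS (len c K) (K / 2) - 1)) D
      (c ((2 * i : ℕ) : ZMod L)) (c ((2 * (i + m) : ℕ) : ZMod L)) := by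
  intro m
  induction m with
  | zero => intro _ _; exact ReflTransGen.refl
  | succ m ih =>
    intro h1 h2
    exact (ih h1 (by omega)).trans (B.join_blk hKe hK0 (j := i + m) (by omega) (by omega))

/-- **The boundary conditions.** -/
theorem Bd.dob (hKe : Even K) (hK0 : 0 < K) :
    Dob (etaQ (zz c K) (WS (len c K) (K / 2) - 1)) D c K := by
  have hN := B.nz
  obtain ⟨kL, hkL⟩ := B.evL
  have hsym : ∀ {s t : ℤ × ℤ}, OutC (etaQ (zz c K) (WS (len c K) (K / 2) - 1)) D s t →
      OutC (etaQ (zz c K) (WS (len c K) (K / 2) - 1)) D t s := by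
    intro s t h
    unfold OutC at h ⊢
    induction h with
    | refl => exact ReflTransGen.refl
    | tail _ h1 ih => exact ReflTransGen.head h1.symm ih
  have hle : ∀ i j : ℕ, K ≤ i → i ≤ j → j ≤ L → Even i → Even j →
      OutC (etaQ (zz c K) (WS (len c K) (K / 2) - 1)) D (c (i : ZMod L)) (c (j : ZMod L)) := by
    rintro i j h1 h2 h3 ⟨a, ha⟩ ⟨b, hb⟩
    have h := B.join_le hKe hK0 a (b - a) (by omega) (by omega)
    have e1 : 2 * a = i := by omega
    have e2 : 2 * (a + (b - a)) = j := by omega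
    rwa [e1, e2] at h
  refine ⟨good_etaQ, ?_, ?_⟩
  · intro i j h1 h2 h3 h4 h5 h6
    rw [B.ev] at h5 h6
    rcases le_total i j with h | h
    · exact hle i j h1 h h4 h5 h6
    · exact hsym (hle j i h3 h h2 h6 h5)
  · have hend : ∀ s x : ℤ × ℤ, s ∈ sites D → Even (s.1 + s.2) →
        PStep (op (etaQ (zz c K) (WS (len c K) (K / 2) - 1)) ∩ (↑D : Set (ℤ × ℤ))ᶜ) s x →
        ∃ i : ℕ, K ≤ i ∧ i ≤ L ∧ c (i : ZMod L) = s := by
      intro s x hs hev hst
      obtain ⟨h1, h2, h3, h4⟩ := hst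
      have h5 : etaQ (zz c K) (WS (len c K) (K / 2) - 1) (min s.1 x.1, min s.2 x.2) = true := h3
      rw [B.eta_true hKe hK0] at h5
      obtain ⟨j, t, hj1, hj2, hj3, hr⟩ := h5
      obtain ⟨r', hr'⟩ := H718.step_cases (v := oo c j) (r := vr c K j t) (s := s) (t := x)
        ⟨h1, h2, hr⟩ hev (B.odd_oo j)
      have hex : ∃ r'', face s r'' = (min s.1 x.1, min s.2 x.2) := by
        obtain ⟨a, b⟩ := s
        obtain ⟨a', b'⟩ := x
        simp only at h1 h2
        have f0 : face (a, b) 0 = (a + 0, b + 0) := rfl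
        have f1 : face (a, b) 1 = (a + -1, b + 0) := rfl
        have f2 : face (a, b) 2 = (a + -1, b + -1) := rfl
        have f3 : face (a, b) 3 = (a + 0, b + -1) := rfl
        rcases h1 with h1 | h1 <;> rcases h2 with h2 | h2
        · exact ⟨0, by rw [f0]; simp only [Prod.mk.injEq]; omega⟩
        · exact ⟨3, by rw [f3]; simp only [Prod.mk.injEq]; omega⟩
        · exact ⟨1, by rw [f1]; simp only [Prod.mk.injEq]; omega⟩
        · exact ⟨2, by rw [f2]; simp only [Prod.mk.injEq]; omega⟩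
      obtain ⟨r'', hr''⟩ := hex
      obtain ⟨i, hi⟩ := H718.exists_bd B.poly B.encl hs (r := r'') (by rw [hr'']; exact h4)
      have hadj : ∃ ρ, c i = oo c j + dir ρ := ⟨r', by rw [hi]; exact hr'⟩
      rcases B.chord _ _ hadj with h7 | h7
      · refine ⟨2 * j + 2, by omega, by omega, ?_⟩
        rw [← hi, h7]
        congr 1
        push_cast
        ring
      · refine ⟨2 * j, by omega, by omega, ?_⟩
        rw [← hi]
        congr 1
        push_cast at h7 ⊢
        linear_combination h7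
    intro s hs t ht hev hst hne
    have hevt : Even (t.1 + t.2) := by
      clear hne ht hs
      induction hst with
      | refl => exact hev
      | tail _ h1 ih => exact even_step h1 ih
    have h1 : ∃ x, PStep (op (etaQ (zz c K) (WS (len c K) (K / 2) - 1)) ∩
        (↑D : Set (ℤ × ℤ))ᶜ) s x := by
      rcases ReflTransGen.cases_head hst with h | ⟨x, hx, -⟩
      · exact absurd h hne
      · exact ⟨x, hx⟩
    have h2 : ∃ x, PStep (op (etaQ (zz c K) (WS (len c K) (K / 2) - 1)) ∩
        (↑D : Set (ℤ × ℤ))ᶜ) t x := by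
      rcases ReflTransGen.cases_tail hst with h | ⟨x, -, hx⟩
      · exact absurd h.symm hne
      · exact ⟨x, hx.symm⟩
    obtain ⟨x, hx⟩ := h1
    obtain ⟨y, hy⟩ := h2
    obtain ⟨i, hi1, hi2, hi3⟩ := hend s x hs hev hx
    obtain ⟨j, hj1, hj2, hj3⟩ := hend t y ht hevt hy
    exact ⟨i, j, hi1, hi2, hj1, hj2, hi3, hj3⟩

end

end Vale.Agent.P167.H653.Real
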