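import Vale.Agent.P167.H653.Real.Zig
import Vale.Agent.P167.H718.Rc

/-!
# P167, [REAL]: the zigzag polygon realizes the domain of squares

`SS` = the faces of `Z²` (odd sites) inside of the zigzag: the odd sites inside of `D` and the odd
sites of the wired arc. `Bd.enc`: the zigzag encloses `SS`; `Bd.Dq_eq`: the squares of the random
cluster model of `Final.Question` (with the wired arc from `c K` to `c 0`) are the squares of `D`.
-/

namespace Vale.Agent.P167.H653.Real

open Finset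
open Vale.Agent.P167.E6 (IsPolygon Encloses dir face edges)
open Vale.Agent.P167.H718 (Chordless par_succ Dq mem_Dq' wE mem_wE)
open Vale.Agent.P167.H192 (ro rf ro' rf' ro_ro' ro'_ro rf_rf' rf'_rf even_ro odd_rf sq sq_mk ed sq_ed
  ed_sq IsEdge)
open Vale.Agent.P167.BR (sites mem_sites)

variable {L : ℕ} {c : ZMod L → ℤ × ℤ} {D : Finset (ℤ × ℤ)} {G : ℤ × ℤ → Prop} {K : ℕ}

/-- The odd sites of the closed zigzag domain. -/
def InS (c : ZMod L → ℤ × ℤ) (D : Finset (ℤ × ℤ)) (K : ℕ) (s : ℤ × ℤ) : Prop :=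
  (∀ r, face s r ∈ D) ∨ ∃ j, K ≤ 2 * j ∧ j < L / 2 ∧ oo c j = s

open Classical in
/-- The faces. -/
noncomputable def SS (c : ZMod L → ℤ × ℤ) (D : Finset (ℤ × ℤ)) (K : ℕ) : Finset (ℤ × ℤ) :=
  ((sites D).filter fun s => ¬ Even (s.1 + s.2) ∧ InS c D K s).image rf'

theorem site_of_face {s : ℤ × ℤ} {r : Fin 4} (h : face s r ∈ D) : s ∈ sites D := by
  rw [mem_sites]
  refine ⟨_, h, ?_⟩
  obtain ⟨a, b⟩ := s
  fin_cases r <;> simp [face]

theorem Bd.mem_SS (B : Bd L c D G) {f : ℤ × ℤ} : f ∈ SS c D K ↔ InS c D K (rf f) := by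
  classical
  unfold SS
  rw [Finset.mem_image]
  constructor
  · rintro ⟨s, hs, rfl⟩
    rw [Finset.mem_filter] at hs
    rw [rf_rf' hs.2.1]
    exact hs.2.2
  · intro h
    refine ⟨rf f, ?_, rf'_rf f⟩
    rw [Finset.mem_filter]
    refine ⟨?_, odd_rf f, h⟩
    rcases h with h | ⟨j, -, -, h⟩
    · exact site_of_face (h 0)
    · rw [← h]
      exact site_of_face (bd_in B.poly B.encl _).1

theorem fin_lt_free : ∀ E X s : Fin 4, (s - X).val < (E - X).val →
    (E - 1 - s).val < (E - X).val ∧ E - (E - 1 - s) - 1 = s := by decide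

theorem fin_ge_wired : ∀ E X s : Fin 4, E ≠ X → ¬ (s - X).val < (E - X).val →
    (s - E).val < (X - E).val ∧ E + (s - E) = s := by decide

theorem fin_free : ∀ E X t : Fin 4, t.val < (E - X).val →
    (E - t - 1 - X).val < (E - X).val := by decide

theorem fin_wired : ∀ E X t : Fin 4, t.val < (X - E).val →
    ¬ (E + t - X).val < (E - X).val := by decide

section

variable (B : Bd L c D G)
include B

/-- The squares of the steps of a free block. -/
theorem Bd.sq_free {j t : ℕ} (hj : ¬ K ≤ 2 * j) (ht : t < len c K j) :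
    face (oo c j) (vr c K j t - 1) ∈ D := by
  have h4 := len_lt (c := c) (K := K) j
  unfold len at ht
  rw [if_neg hj] at ht
  unfold oo
  rw [face_loc B.poly B.encl]
  unfold vr
  rw [if_neg hj]
  exact fin_free (eE c j) (eX c j) (Fin.ofNat 4 t) (by rwa [ofNat_val (by omega)])

theorem Bd.sq_wired {j t : ℕ} (hj : K ≤ 2 * j) (ht : t < len c K j) :
    face (oo c j) (vr c K j t) ∉ D := by
  have h4 := len_lt (c := c) (K := K) j
  unfold len at ht
  rw [if_pos hj] at ht
  unfold oo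
  rw [face_loc B.poly B.encl]
  unfold vr
  rw [if_pos hj]
  exact fin_wired (eE c j) (eX c j) (Fin.ofNat 4 t) (by rwa [ofNat_val (by omega)])

theorem Bd.step_of_free {j : ℕ} (hj : ¬ K ≤ 2 * j) {s : Fin 4} (h : face (oo c j) s ∈ D) :
    ∃ t < len c K j, vr c K j t - 1 = s := by
  unfold oo at h
  rw [face_loc B.poly B.encl] at h
  obtain ⟨h1, h2⟩ := fin_lt_free (eE c j) (eX c j) s h
  refine ⟨(eE c j - 1 - s).val, ?_, ?_⟩
  · unfold len
    rwa [if_neg hj]
  · unfold vr
    rw [if_neg hj, ofNat_of_val]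
    exact h2

theorem Bd.step_of_wired {j : ℕ} (hj : K ≤ 2 * j) {s : Fin 4} (h : face (oo c j) s ∉ D) :
    ∃ t < len c K j, vr c K j t = s := by
  unfold oo at h
  rw [face_loc B.poly B.encl] at h
  obtain ⟨h1, h2⟩ := fin_ge_wired (eE c j) (eX c j) s (B.ne j) h
  refine ⟨(s - eE c j).val, ?_, ?_⟩
  · unfold len
    rwa [if_pos hj]
  · unfold vr
    rw [if_pos hj, ofNat_of_val]
    exact h2

/-- Boundary sites are not of the kind `G`. -/
theorem Bd.not_G (j : ℕ) : ¬ G (oo c j) := by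
  intro h
  have h1 := bd_in B.poly B.encl ((2 * j + 1 : ℕ) : ZMod L)
  exact h1.2 (B.same _ (B.odd_oo j) h _ _ h1.1)

theorem Bd.blk_of_bd {s : ℤ × ℤ} (hs : ¬ Even (s.1 + s.2)) {i : ZMod L} (hi : c i = s) :
    ∃ j < L / 2, oo c j = s := by
  have := B.nz
  have h1 : ¬ Even (i.val) := by
    rw [← B.ev, ZMod.natCast_zmod_val, hi]
    exact hs
  rw [Nat.not_even_iff_odd] at h1
  obtain ⟨j, hj⟩ := h1
  have h2 := ZMod.val_lt i
  obtain ⟨k, hk⟩ := B.evL
  refine ⟨j, by omega, ?_⟩
  unfold oo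
  rw [← hj, ZMod.natCast_zmod_val, hi]

theorem Bd.oo_inj {j j' : ℕ} (hj : j < L / 2) (hj' : j' < L / 2) (h : oo c j = oo c j') :
    j = j' := by
  have := cast_inj_lt (by omega) (by omega) (B.poly.2.1 h)
  omega

/-- The sides of the corners of the square `face s r`. -/
theorem Bd.not_InS_oo {j : ℕ} (hj : j < L / 2) (hK : ¬ K ≤ 2 * j) : ¬ InS c D K (oo c j) := by
  rintro (h | ⟨j', h1, h2, h3⟩)
  · exact (bd_in B.poly B.encl ((2 * j + 1 : ℕ) : ZMod L)).2 (h _)
  · rw [B.oo_inj h2 hj h3] at h1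
    exact hK h1

/-- Sites of the kind `G`. -/
theorem Bd.InS_G {s : ℤ × ℤ} (hs : ¬ Even (s.1 + s.2)) (hG : G s) (r : Fin 4) :
    InS c D K s ↔ face s r ∈ D := by
  constructor
  · rintro (h | ⟨j, -, -, rfl⟩)
    · exact h r
    · exact absurd hG (B.not_G j)
  · intro h
    left
    exact fun r' => B.same s hs hG r r' h

omit B in
theorem face_opp (o : ℤ × ℤ) (ρ : Fin 4) :
    face o ρ = face (o + dir ρ + dir (ρ + 1)) (ρ + 2) := by
  obtain ⟨a, b⟩ := o
  fin_cases ρ <;> simp [face, dir, Fin.add_def]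

omit B in
theorem odd_opp {o : ℤ × ℤ} (h : ¬ Even (o.1 + o.2)) (ρ : Fin 4) :
    ¬ Even ((o + dir ρ + dir (ρ + 1)).1 + (o + dir ρ + dir (ρ + 1)).2) := by
  rw [even_add_dir, even_add_dir]
  simpa using h

/-- **The zigzag polygon encloses `SS`.** -/
theorem Bd.enc : Encloses (zz c K) (SS c D K) := by
  intro v r
  rw [B.exists_step, B.mem_SS, B.mem_SS, rf_left, rf_right]
  set s := ro v with hs
  have hsev : Even (s.1 + s.2) := even_ro v
  have hA : ¬ Even ((s + dir (r + 1)).1 + (s + dir (r + 1)).2) := by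
    rw [even_add_dir]
    simpa using hsev
  have hB : ¬ Even ((s + dir r).1 + (s + dir r).2) := by
    rw [even_add_dir]
    simpa using hsev
  -- the square seen from the two odd corners
  have fA : face (s + dir (r + 1)) (r - 1) = face s r := by
    obtain ⟨a, b⟩ := s
    fin_cases r <;> simp [face, dir, Fin.add_def, Fin.sub_def]
  have fB : face (s + dir r) (r + 1) = face s r := by
    obtain ⟨a, b⟩ := s
    fin_cases r <;> simp [face, dir, Fin.add_def]
  have hop : s + dir (r + 1) = s + dir r + dir (r + 1) + dir (r + 1 + 1) := by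
    obtain ⟨a, b⟩ := s
    fin_cases r <;> simp [dir, Fin.add_def]
  have hGG : G (s + dir r) ↔ ¬ G (s + dir (r + 1)) := by
    rw [hop]
    exact B.opp _ hB (r + 1)
  constructor
  · rintro ⟨j, t, hj, ht, h1, h2⟩
    have hr : ∀ ρ, vert c K j (t + 1) = vert c K j t + dir ρ + dir (ρ + 1) → ρ = r := by
      intro ρ h3
      rw [h2, h1, add_assoc, add_assoc] at h3
      exact (dir2_inj _ _ (add_left_cancel h3)).symm
    by_cases hK : K ≤ 2 * j
    · have h3 := hr _ (B.step_wired hK t)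
      have h4 : s + dir (r + 1) = oo c j := by
        rw [← h3, ← h1]
        unfold vert
        rw [add_assoc (vr c K j t), show (1 : Fin 4) + 1 = 2 from rfl, dir_opp]
        abel
      have hsq : face s r ∉ D := by
        rw [← fA, h4, ← h3, add_sub_cancel_right]
        exact B.sq_wired hK ht
      refine ⟨Or.inr ⟨j, hK, hj, h4.symm⟩, ?_⟩
      have hG : G (s + dir r) := by
        rw [hGG, h4]
        exact B.not_G j
      rw [B.InS_G hB hG (r + 1), fB]
      exact hsq
    · have h3 := hr _ (B.step_free hK t)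
      have h4 : s + dir r = oo c j := by
        rw [← h3, ← h1]
        unfold vert
        rw [dir_opp]
        abel
      have hsq : face s r ∈ D := by
        rw [← fB, h4, ← h3]
        have e : vr c K j t + 2 + 1 = vr c K j t - 1 := by
          generalize vr c K j t = x
          revert x
          decide
        rw [e]
        exact B.sq_free hK ht
      have hG : G (s + dir (r + 1)) := by
        by_contra hc
        exact B.not_G j (h4 ▸ hGG.2 hc)
      refine ⟨?_, ?_⟩
      · rw [B.InS_G hA hG (r - 1), fA]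
        exact hsq
      · rw [h4]
        exact B.not_InS_oo hj hK
  · rintro ⟨h1, h2⟩
    by_cases hG : G (s + dir (r + 1))
    · -- the left face is of the kind `G`
      rw [B.InS_G hA hG (r - 1), fA] at h1
      have hn : ¬ ∀ r', face (s + dir r) r' ∈ D := fun h => h2 (Or.inl h)
      push Not at hn
      obtain ⟨r', hr'⟩ := hn
      obtain ⟨i, hi⟩ := exists_c B.poly B.encl (fB ▸ h1) hr'
      obtain ⟨j, hj, hoo⟩ := B.blk_of_bd hB hi
      have hK : ¬ K ≤ 2 * j := fun hK => h2 (Or.inr ⟨j, hK, hj, hoo⟩)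
      have h3 : face (oo c j) (r + 1) ∈ D := by rw [hoo, fB]; exact h1
      obtain ⟨t, ht, h4⟩ := B.step_of_free hK h3
      have h5 : vr c K j t = r + 2 := by
        rw [← sub_add_cancel (vr c K j t) 1, h4, add_assoc]
        rfl
      have h6 : vert c K j t = s := by
        unfold vert
        rw [hoo, h5, dir_opp]
        abel
      refine ⟨j, t, hj, ht, h6, ?_⟩
      rw [B.step_free hK, h6, h5]
      have e : ∀ r : Fin 4, r + 2 + 2 = r := by decide
      rw [e]
    · have hGB : G (s + dir r) := hGG.2 hG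
      rw [B.InS_G hB hGB (r + 1), fB] at h2
      rcases h1 with h1 | ⟨j, hK, hj, hoo⟩
      · exact absurd (fA ▸ h1 (r - 1)) h2
      · have h3 : face (oo c j) (r - 1) ∉ D := by rw [hoo, fA]; exact h2
        obtain ⟨t, ht, h4⟩ := B.step_of_wired hK h3
        have h6 : vert c K j t = s := by
          unfold vert
          rw [hoo, h4, add_assoc]
          have e : dir (r + 1) + dir (r - 1) = 0 := by
            fin_cases r <;> rfl
          rw [e, add_zero]
        refine ⟨j, t, hj, ht, h6, ?_⟩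
        rw [B.step_wired hK, h6, h4, sub_add_cancel]

/-! ### the squares of the model -/

omit B in
/-- The square of a step of the plane. -/
theorem sq_step (v : ℤ × ℤ) (r : Fin 4) : sq s(v, v + dir r) = face (ro v) r := by
  rw [sq_mk, ro_add]
  obtain ⟨a, b⟩ := ro v
  fin_cases r <;> simp [face, dir]

omit B in
/-- The sides of a face. -/
theorem mem_edges_iff {S : Finset (ℤ × ℤ)} {e : Sym2 (ℤ × ℤ)} (he : IsEdge e) :
    e ∈ edges S ↔ ∃ f ∈ S, ∃ r, sq e = face (rf f) r := by
  have key : ∀ f : ℤ × ℤ, sq s(f, f + (1, 0)) = face (rf f) 3 ∧ sq s(f, f + (0, 1)) = face (rf f) 2 ∧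
      H192.sq s(f + (1, 0), f + (1, 1)) = face (rf f) 0 ∧
      H192.sq s(f + (0, 1), f + (1, 1)) = face (rf f) 1 := by
    rintro ⟨a, b⟩
    refine ⟨?_, ?_, ?_, ?_⟩ <;> rw [sq_mk] <;> simp [ro, rf, face] <;> omega
  have hE : ∀ f : ℤ × ℤ, IsEdge s(f, f + (1, 0)) ∧ IsEdge s(f, f + (0, 1)) ∧
      IsEdge s(f + (1, 0), f + (1, 1)) ∧ IsEdge s(f + (0, 1), f + (1, 1)) := by
    rintro ⟨a, b⟩
    refine ⟨⟨_, 0, rfl⟩, ⟨_, 1, rfl⟩, ⟨(a, b) + (1, 0), 1, ?_⟩, ⟨(a, b) + (0, 1), 0, ?_⟩⟩ <;>
      simp [dir]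
  unfold edges
  rw [Finset.mem_biUnion]
  constructor
  · rintro ⟨f, hf, h⟩
    obtain ⟨k1, k2, k3, k4⟩ := key f
    simp only [Finset.mem_insert, Finset.mem_singleton] at h
    rcases h with rfl | rfl | rfl | rfl
    · exact ⟨f, hf, 3, k1⟩
    · exact ⟨f, hf, 2, k2⟩
    · exact ⟨f, hf, 0, k3⟩
    · exact ⟨f, hf, 1, k4⟩
  · rintro ⟨f, hf, r, h⟩
    refine ⟨f, hf, ?_⟩
    obtain ⟨k1, k2, k3, k4⟩ := key f
    obtain ⟨e1, e2, e3, e4⟩ := hE f
    simp only [Finset.mem_insert, Finset.mem_singleton]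
    rcases H192.fin4_cases r with rfl | rfl | rfl | rfl
    · exact Or.inr (Or.inr (Or.inl (H192.sq_inj he e3 (h.trans k3.symm))))
    · exact Or.inr (Or.inr (Or.inr (H192.sq_inj he e4 (h.trans k4.symm))))
    · exact Or.inr (Or.inl (H192.sq_inj he e2 (h.trans k2.symm)))
    · exact Or.inl (H192.sq_inj he e1 (h.trans k1.symm))

/-- The step of the wired arc: position and square. -/
theorem Bd.mem_wE_zz (hKe : Even K) (hK0 : 0 < K) {e : Sym2 (ℤ × ℤ)} (he : IsEdge e) :
    e ∈ wE (zz c K) (WS (len c K) (K / 2) - 1) ↔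
      ∃ j t, K ≤ 2 * j ∧ j < L / 2 ∧ t < len c K j ∧ sq e = face (oo c j) (vr c K j t) := by
  have hN := B.nzn (K := K)
  have hw : ∀ j, 1 ≤ len c K j := fun j => B.len_pos j
  obtain ⟨k', hk'⟩ := hKe
  have hK2 : K / 2 = k' := by omega
  have hW1 : 1 ≤ WS (len c K) (K / 2) := le_trans (by omega) (le_WS hw (K / 2))
  have hsqm : ∀ j t, K ≤ 2 * j → j < L / 2 → t < len c K j →
      sq s(ro' (PP c K (WS (len c K) j + t)), ro' (PP c K (WS (len c K) j + t + 1))) =
        face (oo c j) (vr c K j t) := by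
    intro j t h1 h2 h3
    rw [B.PP_add h3.le, add_assoc, B.PP_add (t := t + 1) h3, sq_mk, ro_ro' (B.even_vert _ _),
      ro_ro' (B.even_vert _ _), B.step_wired h1]
    unfold vert
    generalize vr c K j t = ρ
    obtain ⟨a, b⟩ := oo c j
    fin_cases ρ <;> simp [face, dir, Fin.add_def]
  have hzz : ∀ i : ℕ, i + 1 < nn c K → zz c K (i : ZMod (nn c K)) = ro' (PP c K (i + 1)) := by
    intro i hi
    unfold zz
    have : ((i : ZMod (nn c K)) + 1) = ((i + 1 : ℕ) : ZMod (nn c K)) := by push_cast; ring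
    rw [this, ZMod.val_natCast_of_lt hi]
  have hzn : ∀ i : ℕ, i + 1 < nn c K →
      zz c K ((i : ZMod (nn c K)) + 1) = ro' (PP c K (i + 1 + 1)) := by
    intro i hi
    rcases Nat.lt_or_ge (i + 1 + 1) (nn c K) with h | h
    · have := hzz (i + 1) h
      push_cast at this
      exact this
    · have h1 : i + 1 + 1 = nn c K := by omega
      rw [h1, B.PP_nn]
      unfold zz
      have : ((i : ZMod (nn c K)) + 1 + 1) = ((nn c K : ℕ) : ZMod (nn c K)) := by
        rw [← h1]
        push_cast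
        ring
      rw [this, ZMod.natCast_self, ZMod.val_zero]
  rw [mem_wE]
  constructor
  · rintro ⟨i, h1, h2, rfl⟩
    rw [hzz i h2, hzn i h2]
    obtain ⟨j, t, hj, ht, hm⟩ := B.exists_pos h2
    have hKj : K ≤ 2 * j := by
      have h3 : WS (len c K) (K / 2) ≤ i + 1 := by omega
      have h4 := (le_JS hw).2 h3
      rw [hm, JS_add hw ht] at h4
      omega
    refine ⟨j, t, hKj, hj, ht, ?_⟩
    rw [hm]
    exact hsqm j t hKj hj ht
  · rintro ⟨j, t, h1, h2, h3, h4⟩
    have hlt := B.pos_lt h2 h3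
    have h5 : WS (len c K) (K / 2) ≤ WS (len c K) j := WS_mono (by omega)
    obtain ⟨i, hi⟩ : ∃ i, WS (len c K) j + t = i + 1 := ⟨WS (len c K) j + t - 1, by omega⟩
    refine ⟨i, by omega, by omega, ?_⟩
    rw [hi] at hlt
    rw [hzz i hlt, hzn i hlt]
    have h6 := hsqm j t h1 h2 h3
    rw [hi] at h6
    refine H192.sq_inj he ?_ (by rw [h4, h6])
    obtain ⟨r, hr⟩ := (B.polygon (K := K)).2.2 (i : ZMod (nn c K))
    rw [hzz i hlt, hzn i hlt] at hr
    rw [hr]
    exact ⟨_, r, rfl⟩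

/-- **The squares of the model are the squares of `D`.** -/
theorem Bd.Dq_eq (hKe : Even K) (hK0 : 0 < K) :
    Dq (SS c D K) (zz c K) (WS (len c K) (K / 2) - 1) = D := by
  ext v
  rw [mem_Dq', mem_edges_iff (H192.isEdge_ed v), B.mem_wE_zz hKe hK0 (H192.isEdge_ed v), sq_ed]
  constructor
  · rintro ⟨⟨f, hf, r, hr⟩, h2⟩
    rw [B.mem_SS] at hf
    rcases hf with hf | ⟨j, h3, h4, h5⟩
    · rw [hr]
      exact hf r
    · by_contra hv
      rw [← h5] at hr
      rw [hr] at hv
      obtain ⟨t, ht, h6⟩ := B.step_of_wired h3 hv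
      exact h2 ⟨j, t, h3, h4, ht, by rw [hr, h6]⟩
  · intro hv
    refine ⟨?_, ?_⟩
    · -- an odd corner of the kind `G`
      have hodd : ∃ (s : ℤ × ℤ) (r : Fin 4), ¬ Even (s.1 + s.2) ∧ face s r = v := by
        by_cases h : Even (v.1 + v.2)
        · refine ⟨(v.1 + 1, v.2), 1, ?_, by simp [face]⟩
          rw [Int.even_iff] at h ⊢
          simp only
          omega
        · exact ⟨v, 0, h, by simp [face]⟩
      obtain ⟨s, r, hs, rfl⟩ := hodd
      by_cases hG : G s
      · refine ⟨rf' s, ?_, r, by rw [rf_rf' hs]⟩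
        rw [B.mem_SS, rf_rf' hs, B.InS_G hs hG r]
        exact hv
      · have hG' : G (s + dir r + dir (r + 1)) := by
          by_contra hc
          exact hG ((B.opp s hs r).2 hc)
        have hs' := odd_opp hs r
        refine ⟨rf' (s + dir r + dir (r + 1)), ?_, r + 2, by rw [rf_rf' hs', face_opp s r]⟩
        rw [B.mem_SS, rf_rf' hs', B.InS_G hs' hG' (r + 2), ← face_opp]
        exact hv
    · rintro ⟨j, t, h1, h2, h3, h4⟩
      rw [h4] at hv
      exact B.sq_wired h1 h3 hv

end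

end Vale.Agent.P167.H653.Real
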