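import Vale.Agent.P167.H653.Real.Enc
import Vale.Agent.P167.XDL.Enl2
import Vale.Agent.P167.H718.DobN

/-!
# P167, [REAL]: the enlargements of a lattice polygon

The `N`-fold enlargement (`N` even, `4 ≤ N`), translated by an odd site `v₀`, satisfies the
hypotheses of the zigzag construction: all its corners are odd sites.
-/

namespace Vale.Agent.P167.H653.Real

open Finset
open Vale.Agent.P167.E6 (IsPolygon Encloses dir face edges)
open Vale.Agent.P167.H718 (Chordless)
open Vale.Agent.P167.H825 (enl pdir)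
open Vale.Agent.P167.Enl (PN qN PN_succ PN_lin qN_eq mem_enl_div)

/-! ### translations -/

theorem face_sub (v w : ℤ × ℤ) (r : Fin 4) : face (v - w) r = face v r - w := by
  unfold face
  abel

theorem mem_tr {S : Finset (ℤ × ℤ)} {w v : ℤ × ℤ} : v ∈ S.image (· + w) ↔ v - w ∈ S := by
  rw [Finset.mem_image]
  constructor
  · rintro ⟨u, hu, rfl⟩
    rwa [add_sub_cancel_right]
  · exact fun h => ⟨_, h, sub_add_cancel _ _⟩

theorem polygon_tr {L : ℕ} {c : ZMod L → ℤ × ℤ} (hc : IsPolygon c) (w : ℤ × ℤ) :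
    IsPolygon fun x => c x + w := by
  refine ⟨hc.1, fun x y h => hc.2.1 (add_right_cancel h), fun i => ?_⟩
  obtain ⟨r, hr⟩ := hc.2.2 i
  exact ⟨r, by simp only [hr]; abel⟩

theorem encloses_tr {L : ℕ} {c : ZMod L → ℤ × ℤ} {S : Finset (ℤ × ℤ)} (hc : Encloses c S)
    (w : ℤ × ℤ) : Encloses (fun x => c x + w) (S.image (· + w)) := by
  intro v r
  rw [mem_tr, mem_tr, ← face_sub, ← face_sub, ← hc]
  constructor
  · rintro ⟨i, h1, h2⟩
    refine ⟨i, ?_, ?_⟩
    · exact eq_sub_of_add_eq h1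
    · rw [sub_add_eq_add_sub]
      exact eq_sub_of_add_eq h2
  · rintro ⟨i, h1, h2⟩
    refine ⟨i, ?_, ?_⟩
    · simp only [h1]; abel
    · simp only [h2]; abel

theorem chordless_tr {L : ℕ} {c : ZMod L → ℤ × ℤ} (hc : Chordless c) (w : ℤ × ℤ) :
    Chordless fun x => c x + w := by
  rintro i j ⟨r, hr⟩
  refine hc i j ⟨r, ?_⟩
  have h : c j + w = c i + w + dir r := hr
  have h' : c j + w = c i + dir r + w := by rw [h]; abel
  exact add_right_cancel h'

/-- Identification of the indices. -/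
def zc {N M : ℕ} (h : N = M) (x : ZMod N) : ZMod M := cast (congrArg ZMod h) x

theorem zc_val {N M : ℕ} (h : N = M) (x : ZMod N) : (zc h x).val = x.val := by
  subst h
  rfl

theorem chordless_zc {N M : ℕ} (h : N = M) {q : ZMod M → ℤ × ℤ} (hq : Chordless q) :
    Chordless fun x => q (zc h x) := by
  subst h
  exact hq

theorem chordless_qN {l n : ℕ} {p : ZMod l → ℤ × ℤ} (hp : IsPolygon p) (hn : 2 ≤ n) (t : ℕ) :
    Chordless (qN p n t) := by
  have e : qN p n t = fun x => CL.re p n t (zc (mul_comm l n) x) := by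
    funext x
    unfold qN CL.re PN CL.pe
    rw [zc_val, Enl.pdir_step hp, add_sub_cancel_left]
  rw [e]
  exact chordless_zc _ (H718.chordless_re hp hn t)

/-! ### the grid -/

section

variable {m N : ℕ} {q : ZMod m → ℤ × ℤ} {S₀ : Finset (ℤ × ℤ)}

/-- The coordinate along the direction `r`. -/
def ax (r : Fin 4) (z : ℤ × ℤ) : ℤ := if r = 0 ∨ r = 2 then z.1 else z.2

theorem ax_add (r : Fin 4) (z w : ℤ × ℤ) : ax r (z + w) = ax r z + ax r w := by
  unfold ax
  split_ifs <;> rfl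

theorem ax_dir : ∀ r d : Fin 4, r ≠ d → r ≠ d + 2 → ax r (dir d) = 0 := by
  decide

theorem ax_smul (r : Fin 4) (k : ℤ) (z : ℤ × ℤ) : ax r (k • z) = k * ax r z := by
  unfold ax
  split_ifs <;> simp

/-- A neighbour off the boundary of a boundary site is on a line of the grid through this site. -/
theorem dvd_of_nb (hp : IsPolygon q) (hN : 0 < N) {m1 : ℕ} (h0 : 0 < m1) {v : ℤ × ℤ} {r : Fin 4}
    (hv : v + dir r = PN q N m1) (hoff : ∀ m', PN q N m' ≠ v) : (N : ℤ) ∣ ax r (v + dir r) := by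
  have h1 := Nat.div_add_mod' m1 N
  have h2 := Nat.mod_lt m1 hN
  have e1 : PN q N m1 = (N : ℤ) • q ((m1 / N : ℕ) : ZMod m) +
      ((m1 % N : ℕ) : ℤ) • dir (pdir q (m1 / N)) := rfl
  rw [hv, e1, ax_add, ax_smul, ax_smul]
  refine dvd_add (Dvd.intro _ rfl) ?_
  rcases Nat.eq_zero_or_pos (m1 % N) with h3 | h3
  · rw [h3]
    simp
  · have hd : ax r (dir (pdir q (m1 / N))) = 0 := by
      apply ax_dir
      · intro hr
        have h4 := PN_succ hN hp (m1 - 1)
        have h5 : m1 - 1 + 1 = m1 := by omega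
        have h6 : (m1 - 1) / N = m1 / N := by
          have h7 : m1 - 1 = m1 / N * N + (m1 % N - 1) := by omega
          rw [h7, add_comm, Nat.add_mul_div_right _ _ hN, Nat.div_eq_of_lt (by omega), zero_add]
        rw [h5, h6, ← hr, ← hv] at h4
        exact hoff _ (add_right_cancel h4).symm
      · intro hr
        have h4 := PN_succ hN hp m1
        rw [← hv, hr, dir_opp] at h4
        refine hoff (m1 + 1) ?_
        rw [h4]
        abel
    rw [hd, mul_zero]
    exact dvd_zero _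

/-- The boundary sites of the translated enlargement. -/
def cN (q : ZMod m → ℤ × ℤ) (N t : ℕ) (v₀ : ℤ × ℤ) : ZMod (m * N) → ℤ × ℤ :=
  fun x => qN q N t x + v₀

/-- The squares of the translated enlargement. -/
def dN (S₀ : Finset (ℤ × ℤ)) (N : ℕ) (v₀ : ℤ × ℤ) : Finset (ℤ × ℤ) := (enl S₀ N).image (· + v₀)

/-- The odd sites strictly inside of the blocks. -/
def GN (v₀ : ℤ × ℤ) (s : ℤ × ℤ) : Prop := ¬ Even (s.1 - v₀.1) ∧ ¬ Even (s.2 - v₀.2)

theorem exists_PN (hp : IsPolygon q) (hN : 0 < N) (t : ℕ) (v₀ : ℤ × ℤ) (i : ZMod (m * N)) :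
    ∃ m1, 0 < m1 ∧ cN q N t v₀ i = PN q N m1 + v₀ := by
  have hm := hp.1
  have : NeZero m := ⟨by omega⟩
  have : NeZero (m * N) := ⟨by positivity⟩
  refine ⟨i.val + t + m * N, by positivity, ?_⟩
  unfold cN
  rw [qN_eq hN (m := i.val + t + m * N)]
  push_cast
  rw [ZMod.natCast_zmod_val]
  have h : ((m : ZMod (m * N)) * (N : ZMod (m * N))) = 0 := by
    have := ZMod.natCast_self (m * N)
    push_cast at this
    exact this
  rw [h, add_zero]

theorem PN_mem (hp : IsPolygon q) (hN : 0 < N) (t : ℕ) (v₀ : ℤ × ℤ) (m1 : ℕ) :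
    ∃ i : ZMod (m * N), cN q N t v₀ i = PN q N m1 + v₀ := by
  have hm := hp.1
  have : NeZero m := ⟨by omega⟩
  refine ⟨(m1 : ZMod (m * N)) - t, ?_⟩
  unfold cN
  rw [qN_eq hN (m := m1) (by ring)]

theorem ediv_pred {a n : ℤ} (hn : 0 < n) (he : Even n) (ha : ¬ Even a) : (a - 1) / n = a / n := by
  have h1 := Int.mul_ediv_add_emod a n
  have h2 := Int.emod_nonneg a hn.ne'
  have h3 := Int.emod_lt_of_pos a hn
  have h4 : a % n ≠ 0 := by
    intro h
    obtain ⟨k, hk⟩ := he
    apply ha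
    refine ⟨k * (a / n), ?_⟩
    rw [h, add_zero] at h1
    have h6 : n * (a / n) = (k + k) * (a / n) := congrArg (· * (a / n)) hk
    linarith
  have h5 : a - 1 = (a % n - 1) + a / n * n := by linarith [mul_comm n (a / n)]
  rw [h5, Int.add_mul_ediv_right _ _ hn.ne', Int.ediv_eq_zero_of_lt (by omega) (by omega), zero_add]

theorem bdN (hp : IsPolygon q) (hE : Encloses q S₀) (hN : 4 ≤ N) (hNe : Even N) (t : ℕ)
    {v₀ : ℤ × ℤ} (hv₀ : ¬ Even (v₀.1 + v₀.2))
    (h0 : Even ((cN q N t v₀ 0).1 + (cN q N t v₀ 0).2)) :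
    Bd (m * N) (cN q N t v₀) (dN S₀ N v₀) (GN v₀) := by
  have hN0 : 0 < N := by omega
  have hNe' : Even (N : ℤ) := (Int.even_coe_nat N).2 hNe
  have hm := hp.1
  refine ⟨polygon_tr (Enl.isPolygon_qN hN0 hp t) v₀, encloses_tr (Enl.encloses_qN hN0 hp hE t) v₀,
    chordless_tr (chordless_qN hp (by omega) t) v₀, h0, hNe.mul_left m, by nlinarith, ?_, ?_,
    ?_⟩
  · intro s hs r
    unfold GN
    obtain ⟨a, b⟩ := s
    obtain ⟨x, y⟩ := v₀
    simp only [Int.even_iff] at hs hv₀ ⊢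
    fin_cases r <;> simp [dir, Fin.add_def] <;> omega
  · rintro ⟨a, b⟩ - hG r r' h
    obtain ⟨x, y⟩ := v₀
    unfold GN at hG
    simp only at hG
    have ea := ediv_pred (a := a - x) (by exact_mod_cast hN0) hNe' hG.1
    have eb := ediv_pred (a := b - y) (by exact_mod_cast hN0) hNe' hG.2
    have key : ∀ r, face (a, b) r ∈ dN S₀ N (x, y) ↔ ((a - x) / N, (b - y) / N) ∈ S₀ := by
      intro r
      unfold dN
      rw [mem_tr, mem_enl_div hN0]
      have e1 : ((face (a, b) r - (x, y)).1 : ℤ) / N = (a - x) / N := by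
        fin_cases r <;> simp only [face, Fin.zero_eta, Fin.mk_one, Fin.reduceFinMk,
          Matrix.cons_val, Prod.fst_sub, Prod.fst_add, add_zero]
        · rw [show a + -1 - x = a - x - 1 by ring, ea]
        · rw [show a + -1 - x = a - x - 1 by ring, ea]
      have e2 : ((face (a, b) r - (x, y)).2 : ℤ) / N = (b - y) / N := by
        fin_cases r <;> simp only [face, Fin.zero_eta, Fin.mk_one, Fin.reduceFinMk,
          Matrix.cons_val, Prod.snd_sub, Prod.snd_add, add_zero]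
        · rw [show b + -1 - y = b - y - 1 by ring, eb]
        · rw [show b + -1 - y = b - y - 1 by ring, eb]
      rw [e1, e2]
    rw [key] at h ⊢
    exact h
  · intro v hv hoff r r' i i' hi hi'
    obtain ⟨m1, h1, h2⟩ := exists_PN hp hN0 t v₀ i
    obtain ⟨m2, h3, h4⟩ := exists_PN hp hN0 t v₀ i'
    have hoff' : ∀ m', PN q N m' ≠ v - v₀ := by
      intro m' h
      obtain ⟨k, hk⟩ := PN_mem hp hN0 t v₀ m'
      exact hoff k (by rw [hk, h]; abel)
    have e1 : v - v₀ + dir r = PN q N m1 := by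
      rw [sub_add_eq_add_sub, hi, h2]
      abel
    have e2 : v - v₀ + dir r' = PN q N m2 := by
      rw [sub_add_eq_add_sub, hi', h4]
      abel
    have d1 := dvd_of_nb hp hN0 h1 e1 hoff'
    have d2 := dvd_of_nb hp hN0 h3 e2 hoff'
    obtain ⟨k1, hk1⟩ := d1
    obtain ⟨k2, hk2⟩ := d2
    obtain ⟨n', hn'⟩ := hNe'
    have hN4 : (4 : ℤ) ≤ N := by exact_mod_cast hN
    have key : (N : ℤ) * (k1 - k2) ≠ 2 ∧ (N : ℤ) * (k1 - k2) ≠ -2 := by
      have h5 : k1 - k2 ≤ 0 ∨ 1 ≤ k1 - k2 := by omega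
      have h6 : 0 ≤ k1 - k2 ∨ k1 - k2 ≤ -1 := by omega
      constructor
      · intro h
        rcases h5 with h5 | h5 <;> nlinarith
      · intro h
        rcases h6 with h6 | h6 <;> nlinarith
    have p1 : ∀ k : ℤ, (N : ℤ) * k % 2 = 0 := by
      intro k
      rw [hn', ← two_mul, mul_assoc]
      exact Int.mul_emod_right 2 _
    have p2 := p1 k1
    have p3 := p1 k2
    have p4 : (N : ℤ) * (k1 - k2) = N * k1 - N * k2 := by ring
    rw [p4] at key
    obtain ⟨a, b⟩ := v
    obtain ⟨x, y⟩ := v₀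
    rw [Int.even_iff] at hv hv₀
    simp only at hv hv₀
    generalize (N : ℤ) * k1 = K1 at *
    generalize (N : ℤ) * k2 = K2 at *
    fin_cases r <;> fin_cases r' <;> simp [ax, dir] at hk1 hk2 ⊢ <;> omega

end

end Vale.Agent.P167.H653.Real
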