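import Vale.Agent.P167.H718.Dob
import Vale.Agent.P167.XDL.Enl

/-!
# P167, [REAL]: the squares around a boundary site

At the boundary site `c i` of a polygon `c` which encloses `D`, `nE i` is the direction of the
neighbour `c (i - 1)` and `nX i` is the direction of the neighbour `c (i + 1)`; the squares of `D`
around the site are those between `nX i` and `nE i` (counterclockwise).
-/

namespace Vale.Agent.P167.H653.Real

open Finset
open Vale.Agent.P167.E6 (IsPolygon Encloses dir face)
open Vale.Agent.P167.H825 (dirOf)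
open Vale.Agent.P167.Enl (dirOf_dir)
open Vale.Agent.P167.H718 (Chordless)

variable {L : ℕ} {c : ZMod L → ℤ × ℤ} {D : Finset (ℤ × ℤ)}

/-- The direction of the next site. -/
def nX (c : ZMod L → ℤ × ℤ) (i : ZMod L) : Fin 4 := dirOf (c (i + 1) - c i)

/-- The direction of the previous site. -/
def nE (c : ZMod L → ℤ × ℤ) (i : ZMod L) : Fin 4 := nX c (i - 1) + 2

theorem dir_inj {r r' : Fin 4} (h : dir r = dir r') : r = r' := by
  rw [← dirOf_dir r, h, dirOf_dir]

theorem dir_opp (r : Fin 4) : dir (r + 2) = -dir r := by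
  fin_cases r <;> rfl

theorem c_succ (hc : IsPolygon c) (i : ZMod L) : c (i + 1) = c i + dir (nX c i) := by
  obtain ⟨r, hr⟩ := hc.2.2 i
  unfold nX
  rw [hr, add_sub_cancel_left, dirOf_dir]

theorem c_pred (hc : IsPolygon c) (i : ZMod L) : c (i - 1) = c i + dir (nE c i) := by
  have h := c_succ hc (i - 1)
  rw [sub_add_cancel] at h
  unfold nE
  rw [dir_opp, h]
  abel

/-- The squares on both sides of the step from `v + dir r` to `v`. -/
theorem face_nb (v : ℤ × ℤ) (r : Fin 4) :
    face (v + dir r) (r + 2) = face v (r - 1) ∧ face (v + dir r) (r + 2 - 1) = face v r := by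
  obtain ⟨a, b⟩ := v
  fin_cases r <;> constructor <;> simp [face, dir, Fin.add_def, Fin.sub_def]

theorem comb : ∀ (x0 x1 x2 x3 : Bool) (b E : Fin 4),
    ![x0, x1, x2, x3] b = true → ![x0, x1, x2, x3] (b - 1) = false →
    ![x0, x1, x2, x3] (E - 1) = true → ![x0, x1, x2, x3] E = false →
    (∀ r, ![x0, x1, x2, x3] r = true → ![x0, x1, x2, x3] (r - 1) = false → r = b) →
    ∀ r, ![x0, x1, x2, x3] r = true ↔ (r - b).val < (E - b).val := by
  decide

/-- **The squares around a boundary site.** -/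
theorem face_loc (hc : IsPolygon c) (hD : Encloses c D) (i : ZMod L) (r : Fin 4) :
    face (c i) r ∈ D ↔ (r - nX c i).val < (nE c i - nX c i).val := by
  classical
  have F2 : ∀ r, face (c i) r ∈ D → face (c i) (r - 1) ∉ D → r = nX c i := by
    intro r h1 h2
    obtain ⟨j, hj, hj'⟩ := (hD (c i) r).2 ⟨h1, h2⟩
    have h3 : j = i := hc.2.1 hj
    rw [h3, c_succ hc] at hj'
    exact (dir_inj (add_left_cancel hj')).symm
  have F1 := (hD (c i) (nX c i)).1 ⟨i, rfl, c_succ hc i⟩
  have F3 : face (c i) (nE c i - 1) ∈ D ∧ face (c i) (nE c i) ∉ D := by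
    have h := (hD (c (i - 1)) (nE c i + 2)).1 ⟨i - 1, rfl, by
      rw [sub_add_cancel, c_pred hc, dir_opp]
      abel⟩
    rw [c_pred hc, (face_nb (c i) (nE c i)).1, (face_nb (c i) (nE c i)).2] at h
    exact h
  set f : Fin 4 → Bool := fun r => decide (face (c i) r ∈ D) with hf
  have e : ∀ r, f r = ![f 0, f 1, f 2, f 3] r := by
    intro r
    fin_cases r <;> rfl
  have hfr : ∀ r, f r = true ↔ face (c i) r ∈ D := fun r => by simp [hf]
  have hfr' : ∀ r, f r = false ↔ face (c i) r ∉ D := fun r => by simp [hf]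
  rw [← hfr, e]
  refine comb _ _ _ _ _ _ ?_ ?_ ?_ ?_ ?_ r
  · rw [← e, hfr]; exact F1.1
  · rw [← e, hfr']; exact F1.2
  · rw [← e, hfr]; exact F3.1
  · rw [← e, hfr']; exact F3.2
  · intro r h1 h2
    rw [← e, hfr] at h1
    rw [← e, hfr'] at h2
    exact F2 r h1 h2

theorem nE_ne (hc : IsPolygon c) (hD : Encloses c D) (i : ZMod L) : nE c i ≠ nX c i := by
  intro h
  have h1 := ((hD (c i) (nX c i)).1 ⟨i, rfl, c_succ hc i⟩).1
  rw [face_loc hc hD, h, sub_self] at h1
  exact lt_irrefl _ h1

/-- A boundary site has a square of `D` and a square outside of `D`. -/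
theorem bd_in (hc : IsPolygon c) (hD : Encloses c D) (i : ZMod L) :
    face (c i) (nX c i) ∈ D ∧ face (c i) (nX c i - 1) ∉ D :=
  (hD (c i) (nX c i)).1 ⟨i, rfl, c_succ hc i⟩

/-- A site with squares inside and outside of `D` is a boundary site. -/
theorem exists_c (hc : IsPolygon c) (hD : Encloses c D) {s : ℤ × ℤ} {r r' : Fin 4}
    (h1 : face s r ∈ D) (h2 : face s r' ∉ D) : ∃ i, c i = s := by
  have hex : ∃ t, face s t ∈ D ∧ face s (t - 1) ∉ D := by
    by_contra hcon
    push Not at hcon
    have h3 := hcon _ h1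
    have h4 := hcon _ h3
    have h5 := hcon _ h4
    rcases H718.fin4_cyc r' r with h | h | h | h <;> rw [h] at h2
    · exact h2 h1
    · exact h2 h3
    · exact h2 h4
    · exact h2 h5
  obtain ⟨t, ht⟩ := hex
  obtain ⟨i, hi, -⟩ := (hD s t).2 ht
  exact ⟨i, hi⟩

end Vale.Agent.P167.H653.Real
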