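import Vale.Agent.P167.H653.Real.DobR
import Vale.Agent.P167.H653.Real.Grid
import Vale.Agent.P167.H653.Real.Defs

/-!
# P167, [REAL]: the enlargements of the polygons of the lattice of the sites are polygons of `Z²`
-/

namespace Vale.Agent.P167.H653.Real

open Finset
open Vale.Agent.P167.E6 (IsPolygon Encloses dir face edges)
open Vale.Agent.P167.H718 (Chordless Dq etaQ Dob)
open Vale.Agent.P167.H825 (enl)
open Vale.Agent.P167.H192 (ro)

variable {L : ℕ} {c : ZMod L → ℤ × ℤ} {D : Finset (ℤ × ℤ)} {G : ℤ × ℤ → Prop} {K : ℕ}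

/-- The boundary position of the vertices of the zigzag. -/
def ff (c : ZMod L → ℤ × ℤ) (K : ℕ) (i : ℕ) : ℕ :=
  if i = 0 then 0 else min (2 * JS (len c K) (i + 1)) L

/-- The index of the target. -/
def kk (c : ZMod L → ℤ × ℤ) (K : ℕ) : ℕ := WS (len c K) (K / 2) - 1

section

variable (B : Bd L c D G)
include B

theorem Bd.ff_mono : Monotone (ff c K) := by
  intro i j hij
  unfold ff
  have h := JS_mono (fun j => B.len_pos (K := K) j) (show i + 1 ≤ j + 1 by omega)
  split_ifs <;> omega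

theorem Bd.ff_step (i : ℕ) : ff c K (i + 1) ≤ ff c K i + 4 := by
  have hw : ∀ j, 1 ≤ len c K j := fun j => B.len_pos j
  unfold ff
  have h1 : JS (len c K) (i + 1 + 1) < JS (len c K) (i + 1) + 2 := by
    rw [JS_lt hw]
    have h2 := (JS_spec hw (i + 1)).2
    have h3 := WS_strict hw (show JS (len c K) (i + 1) + 1 < JS (len c K) (i + 1) + 2 by omega)
    omega
  have h4 : JS (len c K) (i + 1 + 1) ≤ i + 1 + 1 := (le_WS hw _).trans (JS_spec hw _).1
  split_ifs
  all_goals omega

theorem Bd.ff_n : ff c K (nn c K) = L := by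
  have hw : ∀ j, 1 ≤ len c K j := fun j => B.len_pos j
  have h1 := B.le_nn (K := K)
  have h2 := B.big
  obtain ⟨k, hk⟩ := B.evL
  unfold ff
  rw [if_neg (by omega)]
  have h3 := JS_mono hw (show nn c K ≤ nn c K + 1 by omega)
  have h4 : JS (len c K) (nn c K) = L / 2 := JS_WS hw _
  omega

theorem Bd.kk_pos (hK4 : 4 ≤ K) : 0 < kk c K := by
  have hw : ∀ j, 1 ≤ len c K j := fun j => B.len_pos j
  have := le_WS hw (K / 2)
  unfold kk
  omega

theorem Bd.kk_lt (hKL : K ≤ L) : kk c K < nn c K := by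
  have h1 := B.le_nn (K := K)
  have h2 := B.big
  have h3 : WS (len c K) (K / 2) ≤ nn c K := WS_mono (by omega)
  unfold kk
  omega

theorem Bd.ff_k (hKe : Even K) (hK4 : 4 ≤ K) (hKL : K ≤ L) : ff c K (kk c K) = K := by
  have hw : ∀ j, 1 ≤ len c K j := fun j => B.len_pos j
  have h1 := B.kk_pos hK4
  have h2 : kk c K + 1 = WS (len c K) (K / 2) := by
    have := le_WS hw (K / 2)
    unfold kk
    omega
  obtain ⟨k, hk⟩ := hKe
  unfold ff
  rw [if_neg (by omega), h2, JS_WS hw]
  omega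

theorem Bd.near (i : ℕ) (hi : i < nn c K) :
    |(ro (zz c K (i : ZMod (nn c K)))).1 - (c ((ff c K i : ℕ) : ZMod L)).1| ≤ 2 ∧
      |(ro (zz c K (i : ZMod (nn c K)))).2 - (c ((ff c K i : ℕ) : ZMod L)).2| ≤ 2 := by
  have hw : ∀ j, 1 ≤ len c K j := fun j => B.len_pos j
  have hN := B.nzn (K := K)
  have h1 := B.le_nn (K := K)
  have h2 := B.big
  obtain ⟨kL, hkL⟩ := B.evL
  have e1 := B.ro_zz_next (K := K) (i : ZMod (nn c K))
  rw [ZMod.val_natCast_of_lt hi] at e1
  rw [e1]
  have hd : ∀ r : Fin 4, ((dir r).1 ≤ 1 ∧ -1 ≤ (dir r).1) ∧ (dir r).2 ≤ 1 ∧ -1 ≤ (dir r).2 := by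
    decide
  rcases Nat.eq_zero_or_pos i with h0 | h0
  · subst h0
    have e2 : ff c K 0 = 0 := rfl
    rw [e2]
    have e3 := B.PP_add (K := K) (j := 0) (t := 0 + 1) (hw 0)
    rw [WS_zero, zero_add] at e3
    rw [e3]
    have e4 := B.vert_zero (K := K) 0
    rw [mul_zero] at e4
    rw [← e4]
    unfold vert
    have d1 := hd (vr c K 0 0)
    have d2 := hd (vr c K 0 (0 + 1))
    simp only [Prod.fst_add, Prod.snd_add, abs_le]
    omega
  · unfold ff
    rw [if_neg (by omega)]
    rcases Nat.lt_or_ge (i + 1) (nn c K) with h3 | h3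
    · obtain ⟨j, t, hj, ht, hm⟩ := B.exists_pos h3
      rw [hm, JS_add hw ht, B.PP_add ht.le]
      have e2 : min (2 * j) L = 2 * j := by omega
      rw [e2, ← B.vert_zero (K := K)]
      unfold vert
      have d1 := hd (vr c K j t)
      have d2 := hd (vr c K j 0)
      simp only [Prod.fst_add, Prod.snd_add, abs_le]
      omega
    · have h4 : i + 1 = nn c K := by omega
      have h5 : JS (len c K) (nn c K) = L / 2 := JS_WS hw _
      have e2 : min (2 * (L / 2)) L = 2 * (L / 2) := by omega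
      rw [h4, h5, e2]
      have e3 := B.PP_WS (K := K) (L / 2)
      have e4 : WS (len c K) (L / 2) = nn c K := rfl
      rw [e4] at e3
      rw [e3]
      simp

theorem Bd.start' : ro (zz c K (-1)) = c ((0 : ℕ) : ZMod L) := by
  have hN := B.nzn (K := K)
  have h := B.ro_zz_pred (K := K) 0
  rw [zero_sub, ZMod.val_zero] at h
  rw [h]
  exact B.PP_WS (K := K) 0

theorem Bd.target' (hKe : Even K) (hK0 : 0 < K) (hKL : K ≤ L) :
    ro (zz c K ((kk c K : ℕ) : ZMod (nn c K))) = c ((K : ℕ) : ZMod L) := by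
  have hw : ∀ j, 1 ≤ len c K j := fun j => B.len_pos j
  have hN := B.nzn (K := K)
  obtain ⟨k, hk⟩ := hKe
  have h2 : kk c K + 1 = WS (len c K) (K / 2) := by
    have := le_WS hw (K / 2)
    unfold kk
    omega
  rw [B.ro_zz_next, ZMod.val_natCast_of_lt (B.kk_lt hKL), h2, B.PP_WS]
  congr 2
  omega

/-- The step number `t` of the block `j`. -/
theorem Bd.step_at {j t : ℕ} (hj : j < L / 2) (ht : t < len c K j) :
    ro (zz c K (((WS (len c K) j + t : ℕ) : ZMod (nn c K)) - 1)) = vert c K j t ∧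
      ro (zz c K ((WS (len c K) j + t : ℕ) : ZMod (nn c K))) = vert c K j (t + 1) := by
  have hN := B.nzn (K := K)
  have hlt := B.pos_lt hj ht
  have hv : (((WS (len c K) j + t : ℕ) : ZMod (nn c K))).val = WS (len c K) j + t :=
    ZMod.val_natCast_of_lt hlt
  constructor
  · rw [B.ro_zz_pred, hv, B.PP_add ht.le]
  · rw [B.ro_zz_next, hv, add_assoc, B.PP_add (t := t + 1) ht]

/-- A flat block. -/
theorem Bd.flat_blk {j : ℕ} {r : Fin 4}
    (h1 : c ((2 * j + 1 : ℕ) : ZMod L) = c ((2 * j : ℕ) : ZMod L) + dir r)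
    (h2 : c ((2 * j + 2 : ℕ) : ZMod L) = c ((2 * j + 1 : ℕ) : ZMod L) + dir r) :
    len c K j = 2 ∧ eE c j = r + 2 ∧ eX c j = r := by
  have e1 : eE c j = r + 2 := by
    unfold eE nE nX
    have h3 : ((2 * j + 1 : ℕ) : ZMod L) - 1 = ((2 * j : ℕ) : ZMod L) := by push_cast; ring
    rw [h3]
    have h4 : ((2 * j : ℕ) : ZMod L) + 1 = ((2 * j + 1 : ℕ) : ZMod L) := by push_cast; ring
    rw [h4, h1, add_sub_cancel_left, Enl.dirOf_dir]
  have e2 : eX c j = r := by
    unfold eX nX
    have h4 : ((2 * j + 1 : ℕ) : ZMod L) + 1 = ((2 * j + 2 : ℕ) : ZMod L) := by push_cast; ring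
    rw [h4, h2, add_sub_cancel_left, Enl.dirOf_dir]
  refine ⟨?_, e1, e2⟩
  unfold len
  rw [e1, e2]
  have k1 : ∀ r : Fin 4, (r - (r + 2)).val = 2 := by decide
  have k2 : ∀ r : Fin 4, (r + 2 - r).val = 2 := by decide
  split_ifs
  · exact k1 r
  · exact k2 r

theorem Bd.wired' (hKe : Even K) (hK0 : 0 < K) (M : ℕ) (r : Fin 4) (hMe : Even M) (hM : K + M ≤ L)
    (hf : ∀ i : ℕ, K ≤ i → i < K + M →
      c ((i + 1 : ℕ) : ZMod L) = c ((i : ℕ) : ZMod L) + dir r) (m' : ℕ) (hm' : m' < M) :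
    zz c K (((kk c K : ℕ) : ZMod (nn c K)) + m' + 1) =
      zz c K (((kk c K : ℕ) : ZMod (nn c K)) + m') + if Even m' then dir (r + 3) else dir r := by
  have hw : ∀ j, 1 ≤ len c K j := fun j => B.len_pos j
  obtain ⟨k, hk⟩ := hKe
  obtain ⟨M', hM'⟩ := hMe
  obtain ⟨kL, hkL⟩ := B.evL
  have hfb : ∀ i : ℕ, i < M' → len c K (K / 2 + i) = 2 ∧ eE c (K / 2 + i) = r + 2 ∧
      eX c (K / 2 + i) = r := by
    intro i hi
    exact B.flat_blk (hf (2 * (K / 2 + i)) (by omega) (by omega))
      (hf (2 * (K / 2 + i) + 1) (by omega) (by omega))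
  have hWS : ∀ i : ℕ, i ≤ M' → WS (len c K) (K / 2 + i) = WS (len c K) (K / 2) + 2 * i := by
    intro i
    induction i with
    | zero => intro _; rfl
    | succ i ih =>
      intro hi
      rw [← add_assoc, WS_succ, ih (by omega), (hfb i (by omega)).1]
      ring
  have h2 : kk c K + 1 = WS (len c K) (K / 2) := by
    have := le_WS hw (K / 2)
    unfold kk
    omega
  set i := m' / 2 with hi
  set t := m' % 2 with ht
  have hit : 2 * i + t = m' := Nat.div_add_mod m' 2
  have ht2 : t < 2 := Nat.mod_lt _ (by norm_num)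
  have hiM : i < M' := by omega
  obtain ⟨g1, g2, g3⟩ := hfb i hiM
  have hpos : kk c K + m' + 1 = WS (len c K) (K / 2 + i) + t := by
    rw [hWS i hiM.le]
    omega
  have hcast : ((kk c K : ℕ) : ZMod (nn c K)) + m' + 1 =
      ((WS (len c K) (K / 2 + i) + t : ℕ) : ZMod (nn c K)) := by
    rw [← hpos]
    push_cast
    ring
  have hst := B.step_at (K := K) (j := K / 2 + i) (t := t) (by omega) (by omega)
  have hcast' : ((kk c K : ℕ) : ZMod (nn c K)) + m' =
      ((WS (len c K) (K / 2 + i) + t : ℕ) : ZMod (nn c K)) - 1 := by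
    rw [← hcast]
    ring
  rw [hcast, hcast']
  have hKj : K ≤ 2 * (K / 2 + i) := by omega
  have hvr0 : vr c K (K / 2 + i) 0 = r + 2 := by rw [vr_zero, g2]
  have hdir : vr c K (K / 2 + i) t + 1 = if Even m' then r + 3 else r := by
    rcases Nat.lt_or_ge t 1 with h | h
    · have h0 : t = 0 := by omega
      have hev : Even m' := by
        rw [Nat.even_iff]
        omega
      rw [h0, hvr0, if_pos hev, add_assoc]
      rfl
    · have h0 : t = 0 + 1 := by omega
      have hev : ¬ Even m' := by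
        rw [Nat.even_iff]
        omega
      rw [h0, vr_succ_wired hKj, hvr0, if_neg hev]
      have : ∀ r : Fin 4, r + 2 + 1 + 1 = r := by decide
      exact this r
  apply H192.ro_inj
  have e3 : (if Even m' then dir (r + 3) else dir r) = dir (if Even m' then r + 3 else r) := by
    split_ifs <;> rfl
  rw [e3, ro_add, hst.1, hst.2, B.step_wired hKj, hdir]

theorem Bd.free' (hKe : Even K) (hKL : K ≤ L) (M : ℕ) (r : Fin 4) (hMe : Even M) (hM : M ≤ K)
    (hf : ∀ i : ℕ, K ≤ i + M → i < K →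
      c ((i + 1 : ℕ) : ZMod L) = c ((i : ℕ) : ZMod L) + dir r) (m' : ℕ) (hm' : m' < M) :
    zz c K (((kk c K : ℕ) : ZMod (nn c K)) - m') =
      zz c K (((kk c K : ℕ) : ZMod (nn c K)) - m' - 1) +
        if Even m' then dir (r + 3) else dir r := by
  have hw : ∀ j, 1 ≤ len c K j := fun j => B.len_pos j
  obtain ⟨k, hk⟩ := hKe
  obtain ⟨M', hM'⟩ := hMe
  obtain ⟨kL, hkL⟩ := B.evL
  have hfb : ∀ i : ℕ, i < M' → len c K (K / 2 - 1 - i) = 2 ∧ eE c (K / 2 - 1 - i) = r + 2 ∧
      eX c (K / 2 - 1 - i) = r := by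
    intro i hi
    exact B.flat_blk (hf (2 * (K / 2 - 1 - i)) (by omega) (by omega))
      (hf (2 * (K / 2 - 1 - i) + 1) (by omega) (by omega))
  have hWS : ∀ i : ℕ, i ≤ M' → WS (len c K) (K / 2 - i) + 2 * i = WS (len c K) (K / 2) := by
    intro i
    induction i with
    | zero => intro _; rfl
    | succ i ih =>
      intro hi
      have h1 := ih (by omega)
      have h2 : K / 2 - i = (K / 2 - 1 - i) + 1 := by omega
      have h3 : K / 2 - (i + 1) = K / 2 - 1 - i := by omega
      rw [h2, WS_succ, (hfb i (by omega)).1] at h1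
      rw [h3]
      omega
  have h2 : kk c K + 1 = WS (len c K) (K / 2) := by
    have := le_WS hw (K / 2)
    unfold kk
    omega
  set i := m' / 2 with hi
  set s := m' % 2 with hs
  have hit : 2 * i + s = m' := Nat.div_add_mod m' 2
  have ht2 : s < 2 := Nat.mod_lt _ (by norm_num)
  have hiM : i < M' := by omega
  obtain ⟨g1, g2, g3⟩ := hfb i hiM
  have hpos : kk c K = WS (len c K) (K / 2 - 1 - i) + (1 - s) + m' := by
    have h4 := hWS (i + 1) (by omega)
    have h3 : K / 2 - (i + 1) = K / 2 - 1 - i := by omega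
    rw [h3] at h4
    omega
  have hcast : ((kk c K : ℕ) : ZMod (nn c K)) - m' =
      ((WS (len c K) (K / 2 - 1 - i) + (1 - s) : ℕ) : ZMod (nn c K)) := by
    have h5 : ((kk c K : ℕ) : ZMod (nn c K)) =
        ((WS (len c K) (K / 2 - 1 - i) + (1 - s) + m' : ℕ) : ZMod (nn c K)) := by rw [← hpos]
    rw [h5, Nat.cast_add _ m', add_sub_cancel_right]
  have hst := B.step_at (K := K) (j := K / 2 - 1 - i) (t := 1 - s) (by omega) (by omega)
  rw [hcast]
  have hKj : ¬ K ≤ 2 * (K / 2 - 1 - i) := by omega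
  have hvr0 : vr c K (K / 2 - 1 - i) 0 = r + 2 := by rw [vr_zero, g2]
  have hdir : vr c K (K / 2 - 1 - i) (1 - s) + 2 = if Even m' then r + 3 else r := by
    rcases Nat.lt_or_ge s 1 with h | h
    · have h0 : 1 - s = 0 + 1 := by omega
      have hev : Even m' := by
        rw [Nat.even_iff]
        omega
      rw [h0, vr_succ_free hKj, hvr0, if_pos hev]
      have : ∀ r : Fin 4, r + 2 - 1 + 2 = r + 3 := by decide
      exact this r
    · have h0 : 1 - s = 0 := by omega
      have hev : ¬ Even m' := by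
        rw [Nat.even_iff]
        omega
      rw [h0, hvr0, if_neg hev]
      have : ∀ r : Fin 4, r + 2 + 2 = r := by decide
      exact this r
  apply H192.ro_inj
  have e3 : (if Even m' then dir (r + 3) else dir r) = dir (if Even m' then r + 3 else r) := by
    split_ifs <;> rfl
  rw [e3, ro_add, hst.1, hst.2, B.step_free hKj, hdir]

end

/-! ### the grid -/

theorem cN_cast {m N : ℕ} {q : ZMod m → ℤ × ℤ} (hp : IsPolygon q) (hN : 0 < N) (t : ℕ)
    (v₀ : ℤ × ℤ) (i : ℕ) : cN q N t v₀ (i : ZMod (m * N)) = cc q N t v₀ i := by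
  have : NeZero m := ⟨by have := hp.1; omega⟩
  unfold cN cc
  rw [Enl.qN_nat hN]

/-- **The realization of the enlargements.** -/
theorem real {m : ℕ} {q : ZMod m → ℤ × ℤ} {S₀ : Finset (ℤ × ℤ)} (hp : IsPolygon q)
    (hE : Encloses q S₀) {N : ℕ} (hN : 4 ≤ N) (hNe : Even N) {v₀ : ℤ × ℤ}
    (hv₀ : ¬ Even (v₀.1 + v₀.2)) {t K : ℕ}
    (h0 : Even ((cc q N t v₀ 0).1 + (cc q N t v₀ 0).2)) (hKe : Even K) (hK4 : 4 ≤ K)
    (hK : K ≤ m * N) :
    ∃ (n : ℕ) (p : ZMod n → ℤ × ℤ) (k : ℕ) (S : Finset (ℤ × ℤ)) (f : ℕ → ℕ),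
      RealP q S₀ N v₀ t K p k S f := by
  have hN0 : 0 < N := by omega
  have hc := cN_cast hp hN0 t v₀
  have h0' : Even ((cN q N t v₀ 0).1 + (cN q N t v₀ 0).2) := by
    have := hc 0
    rw [Nat.cast_zero] at this
    rw [this]
    exact h0
  have B := bdN hp hE hN hNe t hv₀ h0'
  refine ⟨nn (cN q N t v₀) K, zz (cN q N t v₀) K, kk (cN q N t v₀) K, SS (cN q N t v₀) (dN S₀ N v₀) K,
    ff (cN q N t v₀) K, ?_⟩
  exact
    { poly := B.polygon
      encl := B.enc
      k_pos := B.kk_pos hK4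
      k_lt := B.kk_lt hK
      dq := B.Dq_eq hKe (by omega)
      dob := B.dob hKe (by omega)
      mono := B.ff_mono
      f_zero := rfl
      f_k := B.ff_k hKe hK4 hK
      f_n := B.ff_n
      f_step := B.ff_step
      near := by
        intro i hi
        rw [← hc]
        exact B.near i hi
      start := by
        rw [← hc]
        exact B.start'
      target := by
        rw [← hc]
        exact B.target' hKe (by omega) hK
      wired := by
        intro M r hMe hM hf m' hm'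
        refine B.wired' hKe (by omega) M r hMe hM (fun i h1 h2 => ?_) m' hm'
        rw [hc, hc]
        exact hf i h1 h2
      free := by
        intro M r hMe hM hf m' hm'
        refine B.free' hKe hK M r hMe hM (fun i h1 h2 => ?_) m' hm'
        rw [hc, hc]
        exact hf i h1 h2 }

end Vale.Agent.P167.H653.Real
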