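import Vale.Agent.P167.H653.Real.Blk
import Vale.Agent.P167.H653.Real.Loc
import Vale.Agent.P167.H192.Dict

/-!
# P167, [REAL]: the zigzag polygon of a domain of squares

`c` is a polygon (in the lattice of the sites of the squares) which encloses `D`. Between the even
boundary sites `c (2 j)` and `c (2 j + 2)` the zigzag goes around the odd site `c (2 j + 1)`, through
the squares of `D` if `2 j < K` (free arc) and through the squares outside of `D` if `K ≤ 2 j` (wired
arc).
-/

namespace Vale.Agent.P167.H653.Real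

open Finset
open Vale.Agent.P167.E6 (IsPolygon Encloses dir face)
open Vale.Agent.P167.H825 (dirOf)
open Vale.Agent.P167.Enl (dirOf_dir)
open Vale.Agent.P167.H718 (Chordless par_succ)
open Vale.Agent.P167.H192 (ro rf ro' rf' ro_ro' ro'_ro rf_rf' rf'_rf even_ro odd_rf)

/-- The hypotheses: `c` encloses `D`, has no chords, starts at an even site; the odd sites are of two
kinds, opposite corners of a square are of different kind, the sites of the kind `G` are not on the
boundary; an even site off the boundary has at most one neighbour on the boundary. -/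
structure Bd (L : ℕ) (c : ZMod L → ℤ × ℤ) (D : Finset (ℤ × ℤ)) (G : ℤ × ℤ → Prop) : Prop where
  poly : IsPolygon c
  encl : Encloses c D
  chord : Chordless c
  ev0 : Even ((c 0).1 + (c 0).2)
  evL : Even L
  big : 6 ≤ L
  opp : ∀ s : ℤ × ℤ, ¬ Even (s.1 + s.2) → ∀ r, (G s ↔ ¬ G (s + dir r + dir (r + 1)))
  same : ∀ s : ℤ × ℤ, ¬ Even (s.1 + s.2) → G s → ∀ r r', face s r ∈ D → face s r' ∈ D
  one : ∀ v : ℤ × ℤ, Even (v.1 + v.2) → (∀ i, c i ≠ v) → ∀ r r' i i', v + dir r = c i →
    v + dir r' = c i' → r = r'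

section defs

variable {L : ℕ} (c : ZMod L → ℤ × ℤ) (K : ℕ)

/-- The odd boundary site of the block `j`. -/
def oo (j : ℕ) : ℤ × ℤ := c ((2 * j + 1 : ℕ) : ZMod L)

/-- The entry of the block `j`. -/
def eE (j : ℕ) : Fin 4 := nE c ((2 * j + 1 : ℕ) : ZMod L)

/-- The exit of the block `j`. -/
def eX (j : ℕ) : Fin 4 := nX c ((2 * j + 1 : ℕ) : ZMod L)

/-- The number of steps of the block `j`. -/
def len (j : ℕ) : ℕ := if K ≤ 2 * j then (eX c j - eE c j).val else (eE c j - eX c j).val

/-- The directions of the vertices of the block `j`. -/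
def vr (j t : ℕ) : Fin 4 := if K ≤ 2 * j then eE c j + Fin.ofNat 4 t else eE c j - Fin.ofNat 4 t

/-- The vertices of the block `j`. -/
def vert (j t : ℕ) : ℤ × ℤ := oo c j + dir (vr c K j t)

/-- The sites of the zigzag. -/
def PP (m : ℕ) : ℤ × ℤ := vert c K (JS (len c K) m) (m - WS (len c K) (JS (len c K) m))

/-- The number of vertices. -/
def nn : ℕ := WS (len c K) (L / 2)

/-- The zigzag polygon in the lattice `Z²`. -/
def zz (x : ZMod (nn c K)) : ℤ × ℤ := ro' (PP c K (x + 1).val)

end defs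

variable {L : ℕ} {c : ZMod L → ℤ × ℤ} {D : Finset (ℤ × ℤ)} {G : ℤ × ℤ → Prop} {K : ℕ}

theorem ofNat_val {t : ℕ} (h : t < 4) : (Fin.ofNat 4 t).val = t := Nat.mod_eq_of_lt h

theorem ofNat_of_val (x : Fin 4) : Fin.ofNat 4 x.val = x := by
  apply Fin.ext
  exact ofNat_val x.2

theorem ofNat_succ (t : ℕ) : Fin.ofNat 4 (t + 1) = Fin.ofNat 4 t + 1 := by
  apply Fin.ext
  show (t + 1) % 4 = (t % 4 + 1 % 4) % 4
  omega

theorem vr_zero (j : ℕ) : vr c K j 0 = eE c j := by
  unfold vr
  have : Fin.ofNat 4 0 = 0 := rfl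
  split_ifs <;> simp [this]

theorem vr_len (j : ℕ) : vr c K j (len c K j) = eX c j := by
  unfold vr len
  split_ifs with h
  · rw [ofNat_of_val]
    abel
  · rw [ofNat_of_val]
    abel

theorem vr_succ_free {j : ℕ} (hj : ¬ K ≤ 2 * j) (t : ℕ) : vr c K j (t + 1) = vr c K j t - 1 := by
  unfold vr
  rw [if_neg hj, if_neg hj, ofNat_succ, sub_add_eq_sub_sub]

theorem vr_succ_wired {j : ℕ} (hj : K ≤ 2 * j) (t : ℕ) : vr c K j (t + 1) = vr c K j t + 1 := by
  unfold vr
  rw [if_pos hj, if_pos hj, ofNat_succ, add_assoc]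

theorem len_lt (j : ℕ) : len c K j < 4 := by
  unfold len
  split_ifs
  · exact (eX c j - eE c j).2
  · exact (eE c j - eX c j).2

theorem vr_inj {j t t' : ℕ} (ht : t < 4) (ht' : t' < 4) (h : vr c K j t = vr c K j t') :
    t = t' := by
  unfold vr at h
  split_ifs at h
  · have h1 := add_left_cancel h
    rw [← ofNat_val ht, ← ofNat_val ht', h1]
  · have h1 := sub_right_injective h
    rw [← ofNat_val ht, ← ofNat_val ht', h1]

/-- Steps of the plane in the lattice of the sites. -/
theorem ro_add (v : ℤ × ℤ) (r : Fin 4) : ro (v + dir r) = ro v + dir r + dir (r + 1) := by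
  obtain ⟨a, b⟩ := v
  fin_cases r <;> simp [ro, dir] <;> omega

theorem dir2_inj : ∀ r r' : Fin 4, dir r + dir (r + 1) = dir r' + dir (r' + 1) → r = r' := by
  decide

/-- The faces on both sides of an edge. -/
theorem rf_left (v : ℤ × ℤ) (r : Fin 4) : rf (face v r) = ro v + dir (r + 1) := by
  obtain ⟨a, b⟩ := v
  fin_cases r <;> simp [ro, rf, dir, face] <;> omega

theorem rf_right (v : ℤ × ℤ) (r : Fin 4) : rf (face v (r - 1)) = ro v + dir r := by
  have h := rf_left v (r - 1)
  rwa [sub_add_cancel] at h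

/-- Clockwise steps around a site. -/
theorem step_cw : ∀ (o : ℤ × ℤ) (ρ : Fin 4),
    o + dir (ρ - 1) = o + dir ρ + dir (ρ + 2) + dir (ρ + 2 + 1) := by
  rintro ⟨a, b⟩ ρ
  fin_cases ρ <;> simp [dir, Fin.add_def, Fin.sub_def]

/-- Counterclockwise steps around a site. -/
theorem step_ccw : ∀ (o : ℤ × ℤ) (ρ : Fin 4),
    o + dir (ρ + 1) = o + dir ρ + dir (ρ + 1) + dir (ρ + 1 + 1) := by
  rintro ⟨a, b⟩ ρ
  fin_cases ρ <;> simp [dir, Fin.add_def]

theorem even_add_dir (v : ℤ × ℤ) (r : Fin 4) :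
    Even ((v + dir r).1 + (v + dir r).2) ↔ ¬ Even (v.1 + v.2) := by
  rw [Int.even_iff, Int.even_iff]
  rcases H718.dir4 r with h | h | h | h <;> rw [h] <;> simp only [Prod.fst_add, Prod.snd_add] <;>
    omega

section

variable (B : Bd L c D G)
include B

theorem Bd.ev (i : ℕ) : Even ((c (i : ZMod L)).1 + (c (i : ZMod L)).2) ↔ Even i := by
  induction i with
  | zero =>
    have := B.ev0
    simpa using this
  | succ i ih =>
    push_cast
    rw [par_succ B.poly, ih, Nat.even_add_one]

theorem Bd.nz : NeZero L := ⟨by have := B.big; omega⟩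

theorem Bd.odd_oo (j : ℕ) : ¬ Even ((oo c j).1 + (oo c j).2) := by
  unfold oo
  rw [B.ev]
  simp

theorem Bd.ne (j : ℕ) : eE c j ≠ eX c j := nE_ne B.poly B.encl _

theorem Bd.len_pos (j : ℕ) : 1 ≤ len c K j := by
  have h := B.ne j
  have h1 : (eX c j - eE c j).val ≠ 0 := by
    intro h2
    exact h (sub_eq_zero.1 (Fin.ext h2)).symm
  have h2 : (eE c j - eX c j).val ≠ 0 := by
    intro h2
    exact h (sub_eq_zero.1 (Fin.ext h2))
  unfold len
  split_ifs <;> omega

theorem Bd.vert_zero (j : ℕ) : vert c K j 0 = c ((2 * j : ℕ) : ZMod L) := by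
  unfold vert oo
  rw [vr_zero]
  unfold eE
  rw [← c_pred B.poly]
  congr 1
  push_cast
  ring

theorem Bd.vert_len (j : ℕ) : vert c K j (len c K j) = c ((2 * (j + 1) : ℕ) : ZMod L) := by
  unfold vert oo
  rw [vr_len]
  unfold eX
  rw [← c_succ B.poly]
  congr 1
  push_cast
  ring

theorem Bd.PP_add {j t : ℕ} (ht : t ≤ len c K j) : PP c K (WS (len c K) j + t) = vert c K j t := by
  have hw : ∀ j, 1 ≤ len c K j := fun j => B.len_pos j
  unfold PP
  rcases Nat.lt_or_ge t (len c K j) with h | h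
  · rw [JS_add hw h, Nat.add_sub_cancel_left]
  · have h1 : t = len c K j := le_antisymm ht h
    rw [h1, ← WS_succ, JS_WS hw, Nat.sub_self, B.vert_zero, B.vert_len]

theorem Bd.PP_WS (j : ℕ) : PP c K (WS (len c K) j) = c ((2 * j : ℕ) : ZMod L) := by
  have := B.PP_add (K := K) (j := j) (t := 0) (Nat.zero_le _)
  rw [add_zero] at this
  rw [this, B.vert_zero]

theorem Bd.PP_nn : PP c K (nn c K) = PP c K 0 := by
  unfold nn
  have h0 : WS (len c K) 0 = 0 := rfl
  have h1 := B.PP_WS (K := K) 0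
  rw [h0] at h1
  rw [B.PP_WS, h1]
  congr 1
  have h2 : 2 * (L / 2) = L := by
    obtain ⟨k, hk⟩ := B.evL
    omega
  rw [h2]
  simp

theorem Bd.even_vert (j t : ℕ) : Even ((vert c K j t).1 + (vert c K j t).2) := by
  unfold vert
  rw [even_add_dir]
  exact B.odd_oo j

theorem Bd.even_PP (m : ℕ) : Even ((PP c K m).1 + (PP c K m).2) := B.even_vert _ _

theorem Bd.ro_zz (x : ZMod (nn c K)) : ro (zz c K x) = PP c K (x + 1).val := ro_ro' (B.even_PP _)

theorem Bd.ro_zz_pred (x : ZMod (nn c K)) : ro (zz c K (x - 1)) = PP c K x.val := by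
  rw [B.ro_zz, sub_add_cancel]

/-- The intermediate vertices of a block are not on the boundary. -/
theorem Bd.vert_off {j t : ℕ} (h0 : 0 < t) (ht : t < len c K j) (i : ZMod L) :
    c i ≠ vert c K j t := by
  intro h
  have h4 := len_lt (c := c) (K := K) j
  unfold vert oo at h
  rcases B.chord _ _ ⟨_, h⟩ with h1 | h1
  · rw [h1, c_succ B.poly] at h
    have h2 := dir_inj (add_left_cancel h)
    have h3 : vr c K j t = vr c K j (len c K j) := by
      rw [vr_len]
      exact h2.symm
    have := vr_inj (by omega) h4 h3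
    omega
  · have h1' : i = ((2 * j + 1 : ℕ) : ZMod L) - 1 := by rw [h1]; ring
    rw [h1', c_pred B.poly] at h
    have h2 := dir_inj (add_left_cancel h)
    have h3 : vr c K j t = vr c K j 0 := by
      rw [vr_zero]
      exact h2.symm
    have := vr_inj (by omega) (by omega) h3
    omega

omit B in
theorem cast_inj_lt {L : ℕ} {a b : ℕ} (ha : a < L) (hb : b < L)
    (h : (a : ZMod L) = (b : ZMod L)) : a = b := by
  have h1 := (ZMod.natCast_eq_natCast_iff' a b L).1 h
  rwa [Nat.mod_eq_of_lt ha, Nat.mod_eq_of_lt hb] at h1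

theorem Bd.vert_inj {j j' t t' : ℕ} (hj : j < L / 2) (hj' : j' < L / 2) (ht : t < len c K j)
    (ht' : t' < len c K j') (h : vert c K j t = vert c K j' t') : j = j' ∧ t = t' := by
  have h4 := len_lt (c := c) (K := K) j
  have h4' := len_lt (c := c) (K := K) j'
  rcases Nat.eq_zero_or_pos t with h0 | h0
  · rcases Nat.eq_zero_or_pos t' with h0' | h0'
    · rw [h0, h0', B.vert_zero, B.vert_zero] at h
      have h1 := B.poly.2.1 h
      have h2 := cast_inj_lt (by omega) (by omega) h1
      omega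
    · exfalso
      rw [h0, B.vert_zero] at h
      exact B.vert_off h0' ht' _ h
  · rcases Nat.eq_zero_or_pos t' with h0' | h0'
    · exfalso
      rw [h0', B.vert_zero] at h
      exact B.vert_off h0 ht _ h.symm
    · have hb : ∀ j t, vert c K j t + dir (vr c K j t + 2) = oo c j := by
        intro j t
        unfold vert
        rw [dir_opp]
        abel
      have h1 := B.one (vert c K j t) (B.even_vert j t) (fun i => B.vert_off h0 ht i)
        (vr c K j t + 2) (vr c K j' t' + 2) _ _ (hb j t) (by rw [h]; exact hb j' t')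
      have h2 : vr c K j t = vr c K j' t' := add_right_cancel h1
      have h3 : oo c j = oo c j' := by rw [← hb j t, ← hb j' t', h, h2]
      have h5 := cast_inj_lt (by omega) (by omega) (B.poly.2.1 h3)
      have h6 : j = j' := by omega
      subst h6
      exact ⟨rfl, vr_inj (by omega) (by omega) h2⟩

/-- The position in the blocks. -/
theorem Bd.exists_pos {m : ℕ} (hm : m < nn c K) :
    ∃ j t, j < L / 2 ∧ t < len c K j ∧ m = WS (len c K) j + t := by
  have hw : ∀ j, 1 ≤ len c K j := fun j => B.len_pos j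
  obtain ⟨t, h1, h2⟩ := exists_blk hw m
  exact ⟨_, t, (JS_lt hw).2 hm, h1, h2⟩

theorem Bd.pos_lt {j t : ℕ} (hj : j < L / 2) (ht : t < len c K j) :
    WS (len c K) j + t < nn c K := by
  unfold nn
  have h1 : WS (len c K) (j + 1) ≤ WS (len c K) (L / 2) := WS_mono (by omega)
  rw [WS_succ] at h1
  omega

theorem Bd.PP_inj {m m' : ℕ} (hm : m < nn c K) (hm' : m' < nn c K) (h : PP c K m = PP c K m') :
    m = m' := by
  obtain ⟨j, t, hj, ht, rfl⟩ := B.exists_pos hm
  obtain ⟨j', t', hj', ht', rfl⟩ := B.exists_pos hm'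
  rw [B.PP_add ht.le, B.PP_add ht'.le] at h
  obtain ⟨rfl, rfl⟩ := B.vert_inj hj hj' ht ht' h
  rfl

theorem Bd.le_nn : L / 2 ≤ nn c K := le_WS (fun j => B.len_pos j) _

theorem Bd.nzn : NeZero (nn c K) := ⟨by have := B.le_nn (K := K); have := B.big; omega⟩

/-- The next site. -/
theorem Bd.ro_zz_next (x : ZMod (nn c K)) : ro (zz c K x) = PP c K (x.val + 1) := by
  have := B.nzn (K := K)
  rw [B.ro_zz]
  have hx := ZMod.val_lt x
  rcases Nat.lt_or_ge (x.val + 1) (nn c K) with h | h
  · rw [ZMod.val_add, ZMod.val_one'' (by have := B.le_nn (K := K); have := B.big; omega),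
      Nat.mod_eq_of_lt h]
  · have h1 : x.val + 1 = nn c K := by omega
    rw [h1, B.PP_nn, ZMod.val_add, ZMod.val_one'' (by have := B.le_nn (K := K); have := B.big; omega),
      h1, Nat.mod_self]

/-- The direction (in `Z²`) of the step `t` of the block `j`. -/
theorem Bd.step_free {j : ℕ} (hj : ¬ K ≤ 2 * j) (t : ℕ) :
    vert c K j (t + 1) = vert c K j t + dir (vr c K j t + 2) + dir (vr c K j t + 2 + 1) := by
  unfold vert
  rw [vr_succ_free hj, step_cw]

theorem Bd.step_wired {j : ℕ} (hj : K ≤ 2 * j) (t : ℕ) :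
    vert c K j (t + 1) = vert c K j t + dir (vr c K j t + 1) + dir (vr c K j t + 1 + 1) := by
  unfold vert
  rw [vr_succ_wired hj, step_ccw]

/-- **The zigzag is a polygon.** -/
theorem Bd.polygon : IsPolygon (zz c K) := by
  have := B.nzn (K := K)
  refine ⟨by have := B.le_nn (K := K); have := B.big; omega, ?_, ?_⟩
  · intro x y h
    have h1 : PP c K (x + 1).val = PP c K (y + 1).val := by rw [← B.ro_zz, ← B.ro_zz, h]
    have h2 := B.PP_inj (ZMod.val_lt _) (ZMod.val_lt _) h1
    exact add_right_cancel (ZMod.val_injective _ h2)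
  · intro x
    have hx : x + 1 - 1 = x := by ring
    have e1 : ro (zz c K x) = PP c K (x + 1).val := B.ro_zz x
    have e2 : ro (zz c K (x + 1)) = PP c K ((x + 1).val + 1) := B.ro_zz_next (x + 1)
    obtain ⟨j, t, hj, ht, hm⟩ := B.exists_pos (ZMod.val_lt (x + 1))
    rw [hm, B.PP_add ht.le] at e1
    rw [hm, add_assoc, B.PP_add (t := t + 1) ht] at e2
    by_cases hK : K ≤ 2 * j
    · refine ⟨vr c K j t + 1, H192.ro_inj ?_⟩
      rw [ro_add, e1, e2, B.step_wired hK]
    · refine ⟨vr c K j t + 2, H192.ro_inj ?_⟩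
      rw [ro_add, e1, e2, B.step_free hK]

/-- The steps of the zigzag polygon. -/
theorem Bd.exists_step {v : ℤ × ℤ} {r : Fin 4} :
    (∃ x, zz c K x = v ∧ zz c K (x + 1) = v + dir r) ↔
      ∃ j t, j < L / 2 ∧ t < len c K j ∧ vert c K j t = ro v ∧
        vert c K j (t + 1) = ro v + dir r + dir (r + 1) := by
  have := B.nzn (K := K)
  constructor
  · rintro ⟨x, h1, h2⟩
    obtain ⟨j, t, hj, ht, hm⟩ := B.exists_pos (ZMod.val_lt (x + 1))
    refine ⟨j, t, hj, ht, ?_, ?_⟩
    · rw [← B.PP_add ht.le, ← hm, ← B.ro_zz, h1]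
    · rw [← ro_add, ← h2, B.ro_zz_next, hm, add_assoc, B.PP_add (t := t + 1) ht]
  · rintro ⟨j, t, hj, ht, h1, h2⟩
    have hlt := B.pos_lt hj ht
    have hv : (((WS (len c K) j + t : ℕ) : ZMod (nn c K))).val = WS (len c K) j + t :=
      ZMod.val_natCast_of_lt hlt
    refine ⟨((WS (len c K) j + t : ℕ) : ZMod (nn c K)) - 1, H192.ro_inj ?_, H192.ro_inj ?_⟩
    · rw [B.ro_zz_pred, hv, B.PP_add ht.le, h1]
    · rw [sub_add_cancel, B.ro_zz_next, hv, add_assoc, B.PP_add (t := t + 1) ht, h2, ro_add]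

end

end Vale.Agent.P167.H653.Real
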